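import Crest.Agent.R155.Defs

/-! Row 155: the number of conjugacy classes of a symmetric group. -/

set_option autoImplicit false

namespace Crest.Agent.R155

open Finset

theorem Class.card_le (α : Type) [Fintype α] [DecidableEq α] :
    Nat.card (ConjClasses (Equiv.Perm α)) ≤ Fintype.card (Nat.Partition (Fintype.card α)) := by
  rw [← Nat.card_eq_fintype_card]
  refine Nat.card_le_card_of_injective
    (Quotient.lift (s := IsConj.setoid _) Equiv.Perm.partition
      fun _ _ h => Equiv.Perm.partition_eq_of_isConj.1 h) ?_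
  intro a b
  induction a using Quotient.inductionOn
  induction b using Quotient.inductionOn
  intro h
  exact Quotient.sound (Equiv.Perm.partition_eq_of_isConj.2 h)

theorem Class.sum_count {n : ℕ} (p : Nat.Partition n) :
    ∑ k : Fin n, (k.val + 1) * p.parts.count (k.val + 1) = n := by
  have h := Finset.sum_multiset_count_of_subset p.parts ((range n).image (· + 1)) (by
    intro a ha
    rw [Multiset.mem_toFinset] at ha
    have h1 := p.parts_pos ha
    have h2 := p.le_of_mem_parts ha
    exact mem_image.2 ⟨a - 1, mem_range.2 (by omega), by omega⟩)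
  rw [p.parts_sum, sum_image (fun a _ b _ h => by simpa using h), Finset.sum_range] at h
  conv_rhs => rw [h]
  exact sum_congr rfl fun k _ => by rw [smul_eq_mul, mul_comm]

theorem Class.gen (n : ℕ) {x : ℝ} (h0 : 0 ≤ x) (h1 : x < 1) :
    (Fintype.card (Nat.Partition n) : ℝ) * x ^ n ≤ ∏ k ∈ range n, (1 - x ^ (k + 1))⁻¹ := by
  let φ : Nat.Partition n → Fin n → ℕ := fun p k => p.parts.count (k.val + 1)
  have hφ : Function.Injective φ := by
    intro p q h
    apply Nat.Partition.ext
    ext a
    by_cases ha : 1 ≤ a ∧ a ≤ n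
    · have := congrFun h ⟨a - 1, by omega⟩
      simp only [φ] at this
      rwa [Nat.sub_add_cancel ha.1] at this
    · have e : ∀ r : Nat.Partition n, r.parts.count a = 0 := fun r =>
        Multiset.count_eq_zero.2 fun hr => ha ⟨r.parts_pos hr, r.le_of_mem_parts hr⟩
      rw [e, e]
  calc (Fintype.card (Nat.Partition n) : ℝ) * x ^ n
      = ∑ p : Nat.Partition n, ∏ k : Fin n, (x ^ (k.val + 1)) ^ φ p k := by
        rw [← nsmul_eq_mul, ← card_univ, ← sum_const]
        refine sum_congr rfl fun p _ => ?_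
        simp only [← pow_mul, prod_pow_eq_pow_sum, φ, Class.sum_count]
    _ = ∑ g ∈ univ.image φ, ∏ k : Fin n, (x ^ (k.val + 1)) ^ g k :=
        (sum_image (f := fun g : Fin n → ℕ => ∏ k : Fin n, (x ^ (k.val + 1)) ^ g k)
          fun a _ b _ h => hφ h).symm
    _ ≤ ∑ g ∈ Fintype.piFinset fun _ : Fin n => range (n + 1),
          ∏ k : Fin n, (x ^ (k.val + 1)) ^ g k := by
        refine sum_le_sum_of_subset_of_nonneg ?_ fun g _ _ => by positivity
        intro g hg
        obtain ⟨p, -, rfl⟩ := mem_image.1 hg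
        refine Fintype.mem_piFinset.2 fun k => mem_range.2 ?_
        have h2 : (k.val + 1) * p.parts.count (k.val + 1) ≤ n :=
          (single_le_sum (f := fun k : Fin n => (k.val + 1) * p.parts.count (k.val + 1))
            (fun _ _ => Nat.zero_le _) (mem_univ k)).trans (Class.sum_count p).le
        have h3 : p.parts.count (k.val + 1) ≤ (k.val + 1) * p.parts.count (k.val + 1) :=
          Nat.le_mul_of_pos_left _ (Nat.succ_pos _)
        change p.parts.count (k.val + 1) < n + 1
        omega
    _ = ∏ k : Fin n, ∑ j ∈ range (n + 1), (x ^ (k.val + 1)) ^ j := (prod_univ_sum _ _).symm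
    _ ≤ ∏ k : Fin n, (1 - x ^ (k.val + 1))⁻¹ := by
        refine prod_le_prod (fun _ _ => sum_nonneg fun _ _ => by positivity) fun k _ => ?_
        have hk : x ^ (k.val + 1) < 1 := pow_lt_one₀ h0 h1 (Nat.succ_ne_zero _)
        have hs := hasSum_geometric_of_lt_one (by positivity) hk
        exact sum_le_hasSum _ (fun _ _ => by positivity) hs
    _ = ∏ k ∈ range n, (1 - x ^ (k + 1))⁻¹ := (Finset.prod_range fun k => (1 - x ^ (k + 1))⁻¹).symm

theorem Class.bern {p : ℝ} (h0 : 0 ≤ p) (h1 : p ≤ 1) : (1 / 2 : ℝ) ^ p ≤ 1 - p / 2 := by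
  have := rpow_one_add_le_one_add_mul_self (s := -(1 / 2)) (by norm_num) h0 h1
  norm_num at this ⊢
  linarith

theorem Class.partition_le (n a : ℕ) (ha : 0 < a) (hn : n ≤ a * a) :
    Fintype.card (Nat.Partition n) ≤ 2 ^ (6 * a) := by
  have haR : (0 : ℝ) < a := by exact_mod_cast ha
  set x : ℝ := (1 / 2 : ℝ) ^ (1 / (a : ℝ)) with hx
  have h0 : 0 < x := Real.rpow_pos_of_pos (by norm_num) _
  have h1 : x < 1 := Real.rpow_lt_one (by norm_num) (by norm_num) (by positivity)
  have hpow : ∀ k : ℕ, x ^ k = (1 / 2 : ℝ) ^ ((k : ℝ) / a) := fun k => by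
    rw [hx, ← Real.rpow_mul_natCast (by norm_num)]
    congr 1
    ring
  have hxa : x ^ a = 1 / 2 := by rw [hpow, div_self haR.ne', Real.rpow_one]
  have hlow : ∀ k : ℕ, k ≤ a → (k : ℝ) / (2 * a) ≤ 1 - x ^ k := fun k hk => by
    have hk' : (k : ℝ) ≤ a := by exact_mod_cast hk
    have := Class.bern (p := (k : ℝ) / a) (by positivity) ((div_le_one haR).2 hk')
    rw [← hpow] at this
    have e : (k : ℝ) / (2 * a) = k / a / 2 := by field_simp
    linarith
  have hpos : ∀ k : ℕ, 0 < 1 - x ^ (k + 1) := fun k =>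
    sub_pos.2 (pow_lt_one₀ h0.le h1 (Nat.succ_ne_zero _))
  -- the first `a` factors
  have hA : ∏ k ∈ range a, (1 - x ^ (k + 1))⁻¹ ≤ 2 ^ (3 * a) := by
    calc ∏ k ∈ range a, (1 - x ^ (k + 1))⁻¹ ≤ ∏ k ∈ range a, (2 * a / ((k + 1 : ℕ) : ℝ)) := by
          refine prod_le_prod (fun k _ => (inv_pos.2 (hpos k)).le) fun k hk => ?_
          have := hlow (k + 1) (mem_range.1 hk)
          rw [← inv_div]
          exact inv_anti₀ (by positivity) this
      _ = 2 ^ a * ((a : ℝ) ^ a / a.factorial) := by
          rw [prod_div_distrib, prod_const, card_range, ← Nat.cast_prod,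
            prod_range_add_one_eq_factorial, mul_pow, mul_div_assoc]
      _ ≤ 2 ^ a * 4 ^ a := by
          refine mul_le_mul_of_nonneg_left ((Real.pow_div_factorial_le_exp _ haR.le a).trans ?_)
            (by positivity)
          rw [← Real.exp_one_pow]
          exact pow_le_pow_left₀ (Real.exp_pos _).le
            (Real.exp_one_lt_d9.le.trans (by norm_num)) _
      _ = 2 ^ (3 * a) := by rw [← mul_pow, pow_mul]; norm_num
  -- the other factors
  have hB : ∏ k ∈ range n, (1 - x ^ (a + k + 1))⁻¹ ≤ 2 ^ (2 * a) := by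
    have hs : ∑ k ∈ range n, 2 * x ^ (a + k + 1) ≤ ((2 * a : ℕ) : ℝ) := by
      have g := sum_le_hasSum (range n) (fun _ _ => by positivity)
        (hasSum_geometric_of_lt_one h0.le h1)
      have g1 : (1 - x)⁻¹ ≤ 2 * a := by
        have := hlow 1 ha
        rw [pow_one, Nat.cast_one, one_div] at this
        exact inv_le_of_inv_le₀ (by positivity) this
      refine le_trans (sum_le_sum fun k _ => ?_) (g.trans (g1.trans (by simp)))
      rw [pow_succ, pow_add, hxa]
      have := pow_pos h0 k
      nlinarith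
    calc ∏ k ∈ range n, (1 - x ^ (a + k + 1))⁻¹
        ≤ ∏ k ∈ range n, (2 : ℝ) ^ (2 * x ^ (a + k + 1)) := by
          refine prod_le_prod (fun k _ => (inv_pos.2 (hpos _)).le) fun k _ => ?_
          have hy : x ^ (a + k + 1) ≤ 1 / 2 := by
            rw [← hxa]
            exact pow_le_pow_of_le_one h0.le h1.le (by omega)
          have := Class.bern (p := 2 * x ^ (a + k + 1)) (by positivity) (by linarith)
          rw [one_div, Real.inv_rpow (by norm_num), mul_div_cancel_left₀ _ two_ne_zero] at this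
          exact inv_le_of_inv_le₀ (by positivity) this
      _ = (2 : ℝ) ^ (∑ k ∈ range n, 2 * x ^ (a + k + 1)) :=
          (Real.rpow_sum_of_pos (by norm_num) _ _).symm
      _ ≤ (2 : ℝ) ^ ((2 * a : ℕ) : ℝ) := Real.rpow_le_rpow_of_exponent_le (by norm_num) hs
      _ = 2 ^ (2 * a) := Real.rpow_natCast _ _
  have hC : ∏ k ∈ range n, (1 - x ^ (k + 1))⁻¹ ≤ ∏ k ∈ range (a + n), (1 - x ^ (k + 1))⁻¹ := by
    refine prod_le_prod_of_subset_of_one_le (range_mono (Nat.le_add_left _ _))
      (fun k _ => (inv_pos.2 (hpos k)).le) fun k _ _ => ?_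
    exact (one_le_inv₀ (hpos k)).2 (by linarith [pow_pos h0 (k + 1)])
  rw [prod_range_add] at hC
  have hD := (Class.gen n h0.le h1).trans (hC.trans
    (mul_le_mul hA hB (prod_nonneg fun k _ => (inv_pos.2 (hpos _)).le) (by positivity)))
  have hE : (1 / 2 : ℝ) ^ a ≤ x ^ n := by
    rw [← hxa, ← pow_mul]
    exact pow_le_pow_of_le_one h0.le h1.le hn
  have hF : (Fintype.card (Nat.Partition n) : ℝ) * (1 / 2) ^ a ≤ 2 ^ (3 * a) * 2 ^ (2 * a) :=
    (mul_le_mul_of_nonneg_left hE (by positivity)).trans hD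
  rw [one_div, inv_pow, ← div_eq_mul_inv, div_le_iff₀ (by positivity), ← pow_add, ← pow_add,
    show 3 * a + 2 * a + a = 6 * a by ring] at hF
  exact_mod_cast hF

theorem classBound : ClassStmt := by
  intro α _ _
  refine (Class.card_le α).trans ((Class.partition_le _ (Nat.sqrt (Fintype.card α) + 1)
    (Nat.succ_pos _) (Nat.lt_succ_sqrt _).le).trans ?_)
  exact Nat.pow_le_pow_right (by norm_num) (by omega)

end Crest.Agent.R155
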