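import Mathlib
import Crest.Prelude.Def_Shuffle

/-! Row 155 (Thorp shuffle): definitions shared by the parts of the proof. -/

set_option autoImplicit false

namespace Crest.Agent.R155

open Crest.ProbabilityR.Shuffle Finset

/-- Uniform average over a finite type. -/
noncomputable def av {ι : Type*} [Fintype ι] (f : ι → ℝ) : ℝ := (∑ i, f i) / Fintype.card ι

variable {m : ℕ}

/-- The switch that feeds the output position `y`. -/
def sw (y : Fin (2 * m)) : Fin m := ⟨y.val / 2, by have := y.isLt; omega⟩

/-- The lower input of a switch. -/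
def lo (u : Fin m) : Fin (2 * m) := ⟨u.val, by have := u.isLt; omega⟩

/-- The upper input of a switch. -/
def hi (u : Fin m) : Fin (2 * m) := ⟨u.val + m, by have := u.isLt; omega⟩

/-- The input position that is sent to `y` by the coins `c`. -/
def src (c : Fin m → Bool) (y : Fin (2 * m)) : Fin (2 * m) :=
  if xor (decide (y.val % 2 = 1)) (c (sw y)) then hi (sw y) else lo (sw y)

theorem stepPos_src (c : Fin m → Bool) (y : Fin (2 * m)) : stepPos m c (src c y) = y := by
  have hy := y.isLt
  have h1 : y.val / 2 < m := by omega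
  apply Fin.ext
  unfold src
  split_ifs with h
  · have e : (y.val / 2 + m) % m = y.val / 2 := by
      rw [Nat.add_mod_right, Nat.mod_eq_of_lt h1]
    simp only [stepPos, hi, sw, e, le_add_iff_nonneg_left, zero_le, decide_true] at h ⊢
    revert h
    cases c ⟨y.val / 2, h1⟩ <;> simp <;> omega
  · have e : (y.val / 2) % m = y.val / 2 := Nat.mod_eq_of_lt h1
    have e2 : ¬ m ≤ y.val / 2 := by omega
    simp only [stepPos, lo, sw, e, e2, decide_false] at h ⊢
    revert h
    cases c ⟨y.val / 2, h1⟩ <;> simp <;> omega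

theorem src_injective (c : Fin m → Bool) : Function.Injective (src c) :=
  Function.LeftInverse.injective (stepPos_src c)

theorem src_stepPos (c : Fin m → Bool) (x : Fin (2 * m)) : src c (stepPos m c x) = x := by
  obtain ⟨y, rfl⟩ := (Finite.injective_iff_surjective.mp (src_injective c)) x
  rw [stepPos_src]

/-- One shuffle as a permutation of the positions. -/
def stepPerm (c : Fin m → Bool) : Equiv.Perm (Fin (2 * m)) :=
  ⟨stepPos m c, src c, src_stepPos c, stepPos_src c⟩

/-- A run of shuffles as a permutation of the positions. -/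
def iterPerm : (t : ℕ) → (Fin t → Fin m → Bool) → Equiv.Perm (Fin (2 * m))
  | 0, _ => 1
  | t + 1, cs => stepPerm (cs (Fin.last t)) * iterPerm t (fun i => cs i.castSucc)

theorem coe_iterPerm (t : ℕ) (cs : Fin t → Fin m → Bool) : ⇑(iterPerm t cs) = iterPos m t cs := by
  induction t with
  | zero => rfl
  | succ t ih =>
    funext x
    change stepPos m _ (iterPerm t _ x) = stepPos m _ _
    rw [ih]

/-- One step of a function on the free positions: `E` is the set of occupied positions; a switch
with an occupied input follows the coin, a free switch averages. -/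
noncomputable def vstep (E : Finset (Fin (2 * m))) (c : Fin m → Bool) (v : Fin (2 * m) → ℝ) :
    Fin (2 * m) → ℝ := fun y =>
  if lo (sw y) ∈ E ∨ hi (sw y) ∈ E then v (src c y) else (v (lo (sw y)) + v (hi (sw y))) / 2

/-- The function `v` after `t` steps, when the cards that start in `E` are followed. -/
noncomputable def VT (E : Finset (Fin (2 * m))) (v : Fin (2 * m) → ℝ) :
    (t : ℕ) → (Fin t → Fin m → Bool) → Fin (2 * m) → ℝ
  | 0, _ => v
  | t + 1, cs => vstep (E.image (iterPerm t (fun i => cs i.castSucc))) (cs (Fin.last t))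
      (VT E v t (fun i => cs i.castSucc))

theorem anchor_iterPerm_def : type_of% @iterPerm.eq_def := @iterPerm.eq_def
theorem anchor_iterPerm_1 : type_of% @iterPerm.eq_1 := @iterPerm.eq_1
theorem anchor_iterPerm_2 : type_of% @iterPerm.eq_2 := @iterPerm.eq_2
theorem anchor_VT_def : type_of% @VT.eq_def := @VT.eq_def
theorem anchor_VT_1 : type_of% @VT.eq_1 := @VT.eq_1
theorem anchor_VT_2 : type_of% @VT.eq_2 := @VT.eq_2

/-- The annealed one-card estimate. -/
def WalkStmt : Prop :=
  ∀ d : ℕ, 12 ≤ d → ∀ (E : Finset (Fin (2 * 2 ^ d))), 32 * E.card ≤ 31 * (2 * 2 ^ d) →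
    ∀ w : Fin (2 * 2 ^ d) → ℝ, (∀ y ∈ E, w y = 0) → ∑ y, w y = 0 →
      av (fun cs : Fin (400 * (d + 1)) → Fin (2 ^ d) → Bool =>
        ∑ y, VT E w (400 * (d + 1)) cs y ^ 2) ≤ (1 / 8) ^ (d + 1) * ∑ y, w y ^ 2

/-- The number of conjugacy classes of a symmetric group. -/
def ClassStmt : Prop :=
  ∀ (α : Type) [Fintype α] [DecidableEq α],
    Nat.card (ConjClasses (Equiv.Perm α)) ≤ 2 ^ (6 * Nat.sqrt (Fintype.card α) + 12)

/-- The many-card estimate: outside a rare event, the images of all cards that start outside `B`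
have a small collision probability. -/
def TupleStmt : Prop :=
  ∀ d : ℕ, 12 ≤ d → ∀ B : Finset (Fin (2 * 2 ^ d)), 2 * 2 ^ d ≤ 32 * B.card →
    ∃ Good : Finset (Fin (400 * (d + 1)) → Fin (2 ^ d) → Bool),
      av (fun cs => if cs ∈ Good then (0 : ℝ) else 1) ≤ 1 / 2 ^ d ∧
      ∑ g : Equiv.Perm (Fin (2 * 2 ^ d)),
        av (fun cs => if cs ∈ Good ∧ ∀ a ∉ B, iterPerm (400 * (d + 1)) cs a = g a
          then (1 : ℝ) else 0) ^ 2 ≤
        2 * (B.card.factorial : ℝ) ^ 2 / ((2 * 2 ^ d).factorial : ℝ)

end Crest.Agent.R155
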