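import Crest.Agent.R155.RepDefs

/-! Row 155: pairing of a measure with the small part of the regular representation, and the
operator bound on the dyadic pieces. -/

set_option autoImplicit false

namespace Crest.Agent.R155

open Module Finset
open scoped InnerProductSpace

section General

variable {V : Type*} [NormedAddCommGroup V] [InnerProductSpace ℂ V] [FiniteDimensional ℂ V]

theorem norm_proj_sq_eq_sum (U : Submodule ℂ V) (x : V) :
    ‖U.starProjection x‖ ^ 2 = ∑ i, ‖⟪x, (stdOrthonormalBasis ℂ U i : V)⟫_ℂ‖ ^ 2 := by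
  have h := (stdOrthonormalBasis ℂ U).sum_sq_norm_inner_left
    ⟨U.starProjection x, U.starProjection_apply_mem x⟩
  rw [show ‖U.starProjection x‖ = ‖(⟨U.starProjection x, U.starProjection_apply_mem x⟩ : U)‖
    from rfl, ← h]
  refine Finset.sum_congr rfl fun i _ => ?_
  congr 2
  change ⟪U.starProjection x, (stdOrthonormalBasis ℂ U i : V)⟫_ℂ = _
  rw [Submodule.inner_starProjection_left_eq_right,
    Submodule.starProjection_eq_self_iff.mpr (stdOrthonormalBasis ℂ U i).2]

theorem norm_inner_le_proj {U : Submodule ℂ V} (x : V) {φ : V} (hφ : φ ∈ U) :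
    ‖⟪x, φ⟫_ℂ‖ ≤ ‖U.starProjection x‖ * ‖φ‖ := by
  have : ⟪x, φ⟫_ℂ = ⟪U.starProjection x, φ⟫_ℂ := by
    rw [Submodule.inner_starProjection_left_eq_right, Submodule.starProjection_eq_self_iff.mpr hφ]
  rw [this]
  exact norm_inner_le_norm _ _

theorem norm_proj_sq_le {U : Submodule ℂ V} (x : V) {c : ℝ} (hc : 0 ≤ c)
    (h : ∀ φ ∈ U, ‖⟪x, φ⟫_ℂ‖ ^ 2 ≤ c * ‖φ‖ ^ 2) : ‖U.starProjection x‖ ^ 2 ≤ c := by
  have h1 := h _ (U.starProjection_apply_mem x)
  have h2 : ⟪x, U.starProjection x⟫_ℂ = ⟪U.starProjection x, U.starProjection x⟫_ℂ := by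
    rw [Submodule.inner_starProjection_left_eq_right,
      Submodule.starProjection_eq_self_iff.mpr (U.starProjection_apply_mem x)]
  rw [h2, inner_self_eq_norm_sq_to_K] at h1
  simp only [Complex.coe_algebraMap, norm_pow, Complex.norm_real, norm_norm] at h1
  by_cases h0 : ‖U.starProjection x‖ ^ 2 = 0
  · rw [h0]; exact hc
  · have hp : 0 < ‖U.starProjection x‖ ^ 2 := lt_of_le_of_ne (by positivity) (Ne.symm h0)
    nlinarith

/-- Splitting along commuting families: a bound on the pairing with every `Small (S j) D` gives a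
bound on all vectors of a space of dimension at most `D ^ r`. -/
theorem pair_blocks (hP : ProdStmt) {V : Type} [NormedAddCommGroup V] [InnerProductSpace ℂ V]
    [FiniteDimensional ℂ V] {r D : ℕ} (hr : 0 < r) (S : Fin r → Set (V ≃ₗᵢ[ℂ] V))
    (S₀ : Set (V ≃ₗᵢ[ℂ] V)) (hS : ∀ j, S j ⊆ S₀)
    (hc : ∀ i j, i ≠ j → ∀ u ∈ S i, ∀ u' ∈ S j, ∀ v, u (u' v) = u' (u v))
    (x : V) {c : ℝ} (hc0 : 0 ≤ c)
    (hx : ∀ j, ∀ φ ∈ Small (S j) D, ‖⟪x, φ⟫_ℂ‖ ^ 2 ≤ c * ‖φ‖ ^ 2) :
    ∀ φ ∈ Small S₀ (D ^ r), ‖⟪x, φ⟫_ℂ‖ ^ 2 ≤ r * c * ‖φ‖ ^ 2 := by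
  classical
  let W : ℕ → Submodule ℂ V := fun j => if h : j < r then Small (S ⟨j, h⟩) D else ⊥
  have hWinv : ∀ j i, Inv (S i) (W j) := by
    intro j i
    by_cases h : j < r
    · simp only [W, h, dif_pos]
      by_cases e : (⟨j, h⟩ : Fin r) = i
      · rw [e]; exact inv_small _ _
      · exact inv_small_of_comm (hc _ _ e) D
    · simp only [W, h, dif_neg, not_false_eq_true]
      exact inv_bot _
  obtain ⟨Q, hQ0, hQ⟩ : ∃ Q : ℕ → V →ₗ[ℂ] V, (∀ v, Q 0 v = v) ∧
      ∀ j v, Q (j + 1) v = (W j)ᗮ.starProjection (Q j v) :=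
    ⟨fun j => Nat.rec LinearMap.id (fun i q => (W i)ᗮ.starProjection.toLinearMap ∘ₗ q) j,
      fun _ => rfl, fun _ _ => rfl⟩
  -- the last remainder vanishes
  have hkill : ∀ φ ∈ Small S₀ (D ^ r), Q r φ = 0 := by
    have : Small S₀ (D ^ r) ≤ LinearMap.ker (Q r) := by
      apply small_le
      intro X hX hD
      obtain ⟨Y, hY0, hY⟩ : ∃ Y : ℕ → Submodule ℂ V, Y 0 = X ∧ ∀ j, Y (j + 1) = Y j ⊓ (W j)ᗮ :=
        ⟨fun j => Nat.rec X (fun i y => y ⊓ (W i)ᗮ) j, rfl, fun _ => rfl⟩
      have hYinv : ∀ j i, Inv (S i) (Y j) := by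
        intro j i
        induction j with
        | zero => rw [hY0]; exact hX.mono (hS i)
        | succ j ih => rw [hY]; exact ih.inf (hWinv j i).orthogonal
      have hYle : ∀ j, Y j ≤ X := by
        intro j
        induction j with
        | zero => exact hY0.le
        | succ j ih => rw [hY]; exact inf_le_left.trans ih
      have hYo : ∀ j i, i < j → Y j ≤ (W i)ᗮ := by
        intro j
        induction j with
        | zero => intro i hi; omega
        | succ j ih =>
          intro i hi
          rw [hY]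
          rcases Nat.lt_succ_iff_lt_or_eq.mp hi with h | h
          · exact inf_le_left.trans (ih i h)
          · rw [h]; exact inf_le_right
      have hQY : ∀ j, j ≤ r → ∀ v ∈ X, Q j v ∈ Y j := by
        intro j
        induction j with
        | zero => intro _ v hv; rw [hY0, hQ0]; exact hv
        | succ j ih =>
          intro hj v hv
          have hv' := ih (by omega) v hv
          rw [hQ, hY]
          refine ⟨?_, (W j)ᗮ.starProjection_apply_mem _⟩
          -- the projection on `Y j` preserves `W j`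
          have hjr : j < r := hj
          set y := Q j v
          have hPW : ∀ w ∈ W j, (Y j).starProjection w ∈ W j := by
            intro w hw
            simp only [W, hjr, dif_pos] at hw ⊢
            exact small_map_self (Y j).starProjection.toLinearMap
              (fun u hu v => Inv.proj_comm (W := Y j) (hYinv j ⟨j, hjr⟩) hu v) hw
          have hPWo : ∀ w ∈ (W j)ᗮ, (Y j).starProjection w ∈ (W j)ᗮ := by
            intro w hw
            rw [Submodule.mem_orthogonal] at hw ⊢
            intro u hu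
            rw [← Submodule.inner_starProjection_left_eq_right]
            exact hw _ (hPW u hu)
          have e : (W j)ᗮ.starProjection y = (Y j).starProjection ((W j)ᗮ.starProjection y) := by
            apply Submodule.eq_starProjection_of_mem_orthogonal
            · exact hPWo _ ((W j)ᗮ.starProjection_apply_mem _)
            · rw [Submodule.orthogonal_orthogonal]
              have e2 : y - (Y j).starProjection ((W j)ᗮ.starProjection y) =
                  (Y j).starProjection ((W j).starProjection y) := by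
                rw [Submodule.starProjection_orthogonal_val, map_sub,
                  Submodule.starProjection_eq_self_iff.mpr hv']
                abel
              rw [e2]
              exact hPW _ ((W j).starProjection_apply_mem _)
          rw [e]
          exact (Y j).starProjection_apply_mem _
      have hbot : Y r = ⊥ := by
        refine Classical.byContradiction fun hne => ?_
        have := hP V r D S (Y r) hc hne (hYinv r) (by
          intro j Z hZ hZ0 hZi
          by_contra hlt
          apply hZ0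
          have h1 : Z ≤ W j := by
            simp only [W, j.2, dif_pos]
            exact le_small hZi (not_lt.mp hlt)
          have h2 : Z ≤ (W j)ᗮ := hZ.trans (hYo r j j.2)
          rw [eq_bot_iff, ← Submodule.inf_orthogonal_eq_bot (W j)]
          exact le_inf h1 h2)
        have h2 : finrank ℂ (Y r) ≤ D ^ r := (Submodule.finrank_mono (hYle r)).trans hD
        have h3 : D ^ r < (D + 1) ^ r := Nat.pow_lt_pow_left (by omega) (by omega)
        omega
      intro v hv
      have := hQY r le_rfl v hv
      rwa [hbot, Submodule.mem_bot] at this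
    intro φ hφ
    exact this hφ
  intro φ hφ
  -- telescoping
  have key : ∀ j, j ≤ r → ‖Q j φ‖ ≤ ‖φ‖ ∧
      ‖⟪x, φ - Q j φ⟫_ℂ‖ ^ 2 ≤ j * c * (‖φ‖ ^ 2 - ‖Q j φ‖ ^ 2) := by
    intro j
    induction j with
    | zero => intro _; simp [hQ0]
    | succ j ih =>
      intro hj
      obtain ⟨h1, h2⟩ := ih (by omega)
      have hjr : j < r := hj
      have hn := Submodule.norm_sq_eq_add_norm_sq_starProjection (Q j φ) (W j)
      have hle : ‖Q (j + 1) φ‖ ≤ ‖Q j φ‖ := by
        rw [hQ]; exact Submodule.norm_starProjection_apply_le _ _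
      refine ⟨hle.trans h1, ?_⟩
      have e : φ - Q (j + 1) φ = (φ - Q j φ) + (W j).starProjection (Q j φ) := by
        rw [hQ, Submodule.starProjection_orthogonal_val]; abel
      have h3 : ‖⟪x, (W j).starProjection (Q j φ)⟫_ℂ‖ ^ 2 ≤
          c * ‖(W j).starProjection (Q j φ)‖ ^ 2 := by
        apply hx ⟨j, hjr⟩
        have := (W j).starProjection_apply_mem (Q j φ)
        simpa only [W, hjr, dif_pos] using this
      rw [e, inner_add_right, hQ]
      set A := ‖⟪x, φ - Q j φ⟫_ℂ‖
      set B := ‖⟪x, (W j).starProjection (Q j φ)⟫_ℂ‖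
      set p := ‖(W j).starProjection (Q j φ)‖ ^ 2
      set a := ‖φ‖ ^ 2 - ‖Q j φ‖ ^ 2 with ha
      have ha0 : 0 ≤ a := by
        have := pow_le_pow_left₀ (norm_nonneg _) h1 2
        linarith
      have hp0 : 0 ≤ p := by positivity
      have h4 : ‖⟪x, φ - Q j φ⟫_ℂ + ⟪x, (W j).starProjection (Q j φ)⟫_ℂ‖ ≤ A + B := norm_add_le _ _
      have h5 : (A + B) ^ 2 ≤ ((j : ℝ) + 1) * c * (a + p) := by
        have hA : 0 ≤ A := norm_nonneg _
        have hB : 0 ≤ B := norm_nonneg _
        have hj0 : (0 : ℝ) ≤ j := Nat.cast_nonneg j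
        -- 2AB ≤ c a + j c p
        have h6 : (A * B) ^ 2 ≤ (c * a) * (j * c * p) := by
          rw [mul_pow]
          calc A ^ 2 * B ^ 2 ≤ (j * c * a) * (c * p) :=
                mul_le_mul h2 h3 (by positivity) (by positivity)
            _ = _ := by ring
        have h7 : 2 * (A * B) ≤ c * a + j * c * p := by
          apply le_of_sq_le_sq _ (by positivity) |> fun h => h
          nlinarith [sq_nonneg (c * a - j * c * p)]
        nlinarith
      have h8 : ‖φ‖ ^ 2 - ‖(W j)ᗮ.starProjection (Q j φ)‖ ^ 2 = a + p := by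
        rw [ha]; linarith
      rw [h8]
      push_cast
      exact (pow_le_pow_left₀ (norm_nonneg _) h4 2).trans h5
  have := (key r le_rfl).2
  rw [hkill φ hφ] at this
  simpa using this

end General

end Crest.Agent.R155
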