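import Crest.Agent.R155.Fourier

/-! Row 155: evaluation bound, pairing over cosets and the operator bound. -/

set_option autoImplicit false

namespace Crest.Agent.R155

open Module Finset
open scoped InnerProductSpace

variable {G : Type*} [Group G] [Fintype G]

theorem eval_bound {U : Submodule ℂ (L2 G)} (hU : Inv (Set.range (rt (G := G))) U) {ψ : L2 G}
    (hψ : ψ ∈ U) (h : G) : (Fintype.card G : ℝ) * ‖ψ h‖ ^ 2 ≤ finrank ℂ U * ‖ψ‖ ^ 2 := by
  classical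
  let δ : G → L2 G := fun g => EuclideanSpace.single g 1
  have hδ : ∀ g (φ : L2 G), ⟪δ g, φ⟫_ℂ = φ g := by
    intro g φ
    simp [δ, EuclideanSpace.inner_single_left]
  have h1 : ∀ g, ‖U.starProjection (δ g)‖ = ‖U.starProjection (δ 1)‖ := by
    intro g
    have : δ g = rt g⁻¹ (δ 1) := by
      ext x
      simp [δ, mul_inv_eq_one]
    rw [this, hU.proj_comm ⟨g⁻¹, rfl⟩, LinearIsometryEquiv.norm_map]
  have h2 : ∑ g, ‖U.starProjection (δ g)‖ ^ 2 = finrank ℂ U := by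
    simp only [norm_proj_sq_eq_sum, hδ]
    rw [Finset.sum_comm]
    simp only [← EuclideanSpace.norm_sq_eq]
    have : ∀ i, ‖(stdOrthonormalBasis ℂ U i : L2 G)‖ = 1 := fun i =>
      (stdOrthonormalBasis ℂ U).orthonormal.1 i
    simp [this]
  have h3 : (Fintype.card G : ℝ) * ‖U.starProjection (δ h)‖ ^ 2 = finrank ℂ U := by
    rw [← h2]
    simp only [h1, Finset.sum_const, Finset.card_univ, nsmul_eq_mul]
  have h4 := norm_inner_le_proj (δ h) hψ
  rw [hδ] at h4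
  have h5 := pow_le_pow_left₀ (norm_nonneg _) h4 2
  rw [← h3, mul_assoc, ← mul_pow]
  exact mul_le_mul_of_nonneg_left h5 (Nat.cast_nonneg _)

/-- A real function as a vector. -/
def vec (ν : G → ℝ) : L2 G := WithLp.toLp 2 fun g => (ν g : ℂ)

omit [Group G] in
theorem inner_vec (ν : G → ℝ) (φ : L2 G) : ⟪vec ν, φ⟫_ℂ = ∑ g, (ν g : ℂ) * φ g := by
  simp [vec, PiLp.inner_apply, mul_comm]

/-- Restriction to a coset. -/
def res {H : Type*} [Group H] (ι : H →* G) (g : G) : L2 G →ₗ[ℂ] L2 H where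
  toFun φ := WithLp.toLp 2 fun h => φ (g * ι h)
  map_add' _ _ := rfl
  map_smul' _ _ := rfl

theorem pair_coset {H : Type*} [Group H] [Fintype H] (ι : H →* G) (ν : G → ℝ)
    (hν : ∀ g, 0 ≤ ν g)
    (hF : ∑ g, (∑ h, ν (g * ι h)) ^ 2 ≤ 2 * (Fintype.card H : ℝ) ^ 2 / Fintype.card G) (D : ℕ) :
    ∀ φ ∈ Small (Set.range fun h => rt (ι h)) D, ‖⟪vec ν, φ⟫_ℂ‖ ^ 2 ≤
      2 * finrank ℂ (SmallG H D) / Fintype.card G * ‖φ‖ ^ 2 := by
  intro φ hφ
  have hH : (0 : ℝ) < Fintype.card H := by exact_mod_cast Fintype.card_pos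
  have hG : (0 : ℝ) < Fintype.card G := by exact_mod_cast Fintype.card_pos
  set dU : ℝ := (finrank ℂ (SmallG H D) : ℝ) with hdU
  have hdU0 : 0 ≤ dU := Nat.cast_nonneg _
  have hres : ∀ g, res ι g φ ∈ SmallG H D := by
    intro g
    refine small_map (res ι g) ?_ hφ
    rintro _ ⟨h, rfl⟩
    refine ⟨_, ⟨h, rfl⟩, fun v => ?_⟩
    ext k
    simp [res, mul_assoc]
  let M : G → ℝ := fun g => √(dU / Fintype.card H) * ‖res ι g φ‖
  have hM : ∀ g h, ‖φ (g * ι h)‖ ≤ M g := by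
    intro g h
    have := eval_bound (inv_small _ D) (hres g) h
    apply le_of_sq_le_sq _ (by positivity) |> fun h => h
    simp only [M]
    rw [mul_pow, Real.sq_sqrt (by positivity), div_mul_eq_mul_div, le_div_iff₀ hH, mul_comm]
    exact this
  have e1 : (Fintype.card H : ℂ) * ⟪vec ν, φ⟫_ℂ = ∑ g, ∑ h, (ν (g * ι h) : ℂ) * φ (g * ι h) := by
    rw [Finset.sum_comm, inner_vec]
    have : ∀ h : H, ∑ g, (ν (g * ι h) : ℂ) * φ (g * ι h) = ∑ g, (ν g : ℂ) * φ g := fun h =>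
      Equiv.sum_comp (Equiv.mulRight (ι h)) (fun g => (ν g : ℂ) * φ g)
    simp [this]
  have e2 : (Fintype.card H : ℝ) * ‖⟪vec ν, φ⟫_ℂ‖ ≤ ∑ g, (∑ h, ν (g * ι h)) * M g := by
    have : (Fintype.card H : ℝ) * ‖⟪vec ν, φ⟫_ℂ‖ = ‖(Fintype.card H : ℂ) * ⟪vec ν, φ⟫_ℂ‖ := by
      simp
    rw [this, e1]
    refine (norm_sum_le _ _).trans (Finset.sum_le_sum fun g _ => ?_)
    refine (norm_sum_le _ _).trans ?_
    rw [Finset.sum_mul]
    refine Finset.sum_le_sum fun h _ => ?_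
    rw [norm_mul, Complex.norm_real, Real.norm_of_nonneg (hν _)]
    exact mul_le_mul_of_nonneg_left (hM g h) (hν _)
  have e3 : ∑ g, M g ^ 2 = dU * ‖φ‖ ^ 2 := by
    simp only [M, mul_pow]
    rw [Real.sq_sqrt (by positivity), ← Finset.mul_sum]
    have : ∑ g, ‖res ι g φ‖ ^ 2 = Fintype.card H * ‖φ‖ ^ 2 := by
      simp only [EuclideanSpace.norm_sq_eq]
      rw [Finset.sum_comm]
      have : ∀ h : H, ∑ g, ‖res ι g φ h‖ ^ 2 = ∑ g, ‖φ g‖ ^ 2 := fun h =>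
        Equiv.sum_comp (Equiv.mulRight (ι h)) (fun g => ‖φ g‖ ^ 2)
      simp [this]
    rw [this]
    field_simp
  have e4 := Finset.sum_mul_sq_le_sq_mul_sq Finset.univ (fun g => ∑ h, ν (g * ι h)) M
  rw [e3] at e4
  have e5 := (pow_le_pow_left₀ (by positivity) e2 2).trans
    (e4.trans (mul_le_mul_of_nonneg_right hF (by positivity)))
  rw [mul_pow] at e5
  have e6 : 2 * (Fintype.card H : ℝ) ^ 2 / Fintype.card G * (dU * ‖φ‖ ^ 2) =
      (Fintype.card H : ℝ) ^ 2 * (2 * dU / Fintype.card G * ‖φ‖ ^ 2) := by ring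
  rw [e6] at e5
  exact le_of_mul_le_mul_left e5 (by positivity)

/-- Convolution operator. -/
noncomputable def conv (ν : G → ℝ) : L2 G →ₗ[ℂ] L2 G :=
  ∑ x, (ν x : ℂ) • (lt x).toLinearEquiv.toLinearMap

theorem conv_apply (ν : G → ℝ) (φ : L2 G) (g : G) :
    conv ν φ g = ∑ x, (ν x : ℂ) * φ (x * g) := by
  simp [conv, LinearMap.sum_apply]

theorem conv_rt (ν : G → ℝ) (y : G) (φ : L2 G) : conv ν (rt y φ) = rt y (conv ν φ) := by
  ext g
  simp [conv_apply, mul_assoc]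

theorem conv_eq_inner (ν : G → ℝ) (φ : L2 G) (g : G) : conv ν φ g = ⟪vec ν, rt g φ⟫_ℂ := by
  simp [conv_apply, inner_vec]

theorem adjoint_comm {V : Type*} [NormedAddCommGroup V] [InnerProductSpace ℂ V]
    [FiniteDimensional ℂ V] (T : V →ₗ[ℂ] V) (u : V ≃ₗᵢ[ℂ] V) (h : ∀ v, T (u v) = u (T v)) (v : V) :
    LinearMap.adjoint T (u v) = u (LinearMap.adjoint T v) := by
  apply ext_inner_left ℂ
  intro w
  obtain ⟨w, rfl⟩ := u.surjective w
  rw [LinearMap.adjoint_inner_right, h, u.inner_map_map, u.inner_map_map,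
    LinearMap.adjoint_inner_right]

/-- The piece between two thresholds. -/
noncomputable def Piece (G : Type*) [Group G] [Fintype G] (D₁ D₂ : ℕ) : Submodule ℂ (L2 G) :=
  SmallG G D₂ ⊓ (SmallG G D₁)ᗮ

theorem piece_map {D₁ D₂ : ℕ} (T : L2 G →ₗ[ℂ] L2 G) (hT : ∀ y φ, T (rt y φ) = rt y (T φ))
    {φ : L2 G} (hφ : φ ∈ Piece G D₁ D₂) : T φ ∈ Piece G D₁ D₂ := by
  refine ⟨small_map_self T ?_ hφ.1, ?_⟩
  · rintro _ ⟨y, rfl⟩
    exact hT y
  · have h2 : φ ∈ (SmallG G D₁)ᗮ := hφ.2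
    change T φ ∈ (SmallG G D₁)ᗮ
    rw [Submodule.mem_orthogonal] at h2 ⊢
    intro w hw
    rw [← LinearMap.adjoint_inner_left]
    refine h2 _ (small_map_self _ ?_ hw)
    rintro _ ⟨y, rfl⟩
    exact adjoint_comm T _ (hT y)

theorem inv_piece (D₁ D₂ : ℕ) : Inv (Set.range (rt (G := G))) (Piece G D₁ D₂) :=
  (inv_small _ _).inf (inv_small _ _).orthogonal

theorem gowers (ν : G → ℝ) {D₁ D₂ : ℕ} {β : ℝ} (hβ0 : 0 ≤ β)
    (hβ : ∀ φ ∈ SmallG G D₂, ‖⟪vec ν, φ⟫_ℂ‖ ^ 2 ≤ β / Fintype.card G * ‖φ‖ ^ 2)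
    {φ : L2 G} (hφ : φ ∈ Piece G D₁ D₂) : (D₁ + 1) * ‖conv ν φ‖ ^ 2 ≤ β * ‖φ‖ ^ 2 := by
  classical
  have hG : (0 : ℝ) < Fintype.card G := by exact_mod_cast Fintype.card_pos
  by_cases h0 : φ = 0
  · simp [h0]
  let T := conv ν
  let A : L2 G →ₗ[ℂ] L2 G := LinearMap.adjoint T ∘ₗ T
  have hA : ∀ y ψ, A (rt y ψ) = rt y (A ψ) := by
    intro y ψ
    change LinearMap.adjoint T (T (rt y ψ)) = rt y (LinearMap.adjoint T (T ψ))
    rw [conv_rt, adjoint_comm T _ (conv_rt ν y)]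
  have hAin : ∀ ψ, ⟪A ψ, ψ⟫_ℂ = ((‖T ψ‖ ^ 2 : ℝ) : ℂ) := by
    intro ψ
    change ⟪LinearMap.adjoint T (T ψ), ψ⟫_ℂ = _
    rw [LinearMap.adjoint_inner_left, inner_self_eq_norm_sq_to_K]
    simp
  have hAs : A.IsSymmetric := by
    intro v w
    change ⟪LinearMap.adjoint T (T v), w⟫_ℂ = ⟪v, LinearMap.adjoint T (T w)⟫_ℂ
    rw [LinearMap.adjoint_inner_left, LinearMap.adjoint_inner_right]
  set P := Piece G D₁ D₂ with hP
  have hAP : ∀ v ∈ P, A v ∈ P := fun v hv => piece_map A hA hv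
  have : Nontrivial P := ⟨⟨⟨φ, hφ⟩, 0, fun h => h0 (congrArg Subtype.val h)⟩⟩
  have hev := (hAs.restrict_invariant hAP).hasEigenvalue_iSup_of_finiteDimensional
  set lam : ℝ := ⨆ x : { x : P // x ≠ 0 },
    RCLike.re ⟪A.restrict hAP x, (x : P)⟫_ℂ / ‖(x : P)‖ ^ 2 with hlam
  have hq : ∀ x : { x : P // x ≠ 0 }, RCLike.re ⟪A.restrict hAP x, (x : P)⟫_ℂ / ‖(x : P)‖ ^ 2 =
      ‖T ((x : P) : L2 G)‖ ^ 2 / ‖((x : P) : L2 G)‖ ^ 2 := by
    intro x
    have : ⟪A.restrict hAP x, (x : P)⟫_ℂ = ⟪A ((x : P) : L2 G), ((x : P) : L2 G)⟫_ℂ := rfl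
    rw [this, hAin]
    simp only [RCLike.re_to_complex, Complex.ofReal_re]
    rfl
  have hle : ‖T φ‖ ^ 2 ≤ lam * ‖φ‖ ^ 2 := by
    have hb : BddAbove (Set.range fun x : { x : P // x ≠ 0 } =>
        RCLike.re ⟪A.restrict hAP x, (x : P)⟫_ℂ / ‖(x : P)‖ ^ 2) := by
      refine ⟨‖LinearMap.toContinuousLinearMap T‖ ^ 2, ?_⟩
      rintro _ ⟨x, rfl⟩
      have hx : ((x : P) : L2 G) ≠ 0 := fun h => x.2 (Subtype.ext h)
      have hx' : 0 < ‖((x : P) : L2 G)‖ := norm_pos_iff.mpr hx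
      simp only [hq]
      rw [div_le_iff₀ (by positivity), ← mul_pow]
      exact pow_le_pow_left₀ (norm_nonneg _)
        ((LinearMap.toContinuousLinearMap T).le_opNorm _) 2
    have := le_ciSup hb ⟨⟨φ, hφ⟩, fun h => h0 (congrArg Subtype.val h)⟩
    rw [hq, div_le_iff₀ (by have := norm_pos_iff.mpr h0; positivity)] at this
    exact this
  -- the top eigenspace
  let E : Submodule ℂ (L2 G) := P ⊓ Module.End.eigenspace A (lam : ℂ)
  have hEinv : Inv (Set.range (rt (G := G))) E := by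
    refine (inv_piece D₁ D₂).inf ?_
    rintro _ ⟨y, rfl⟩ v hv
    rw [Module.End.mem_eigenspace_iff] at hv ⊢
    rw [hA, hv, map_smul]
  have hEne : E ≠ ⊥ := by
    obtain ⟨v, hv⟩ := hev.exists_hasEigenvector
    rw [Submodule.ne_bot_iff]
    refine ⟨v, ⟨v.2, ?_⟩, fun h => hv.2 (Subtype.ext h)⟩
    have := Module.End.mem_eigenspace_iff.mp hv.1
    exact Module.End.mem_eigenspace_iff.mpr (congrArg Subtype.val this)
  have hEdim : D₁ + 1 ≤ finrank ℂ E := by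
    by_contra hlt
    apply hEne
    have h1 : E ≤ SmallG G D₁ := le_small hEinv (by omega)
    have h2 : E ≤ (SmallG G D₁)ᗮ := inf_le_left.trans inf_le_right
    rw [eq_bot_iff, ← Submodule.inf_orthogonal_eq_bot (SmallG G D₁)]
    exact le_inf h1 h2
  have hPν : ‖E.starProjection (vec ν)‖ ^ 2 ≤ β / Fintype.card G :=
    norm_proj_sq_le _ (by positivity) fun ψ hψ => hβ ψ hψ.1.1
  let b := stdOrthonormalBasis ℂ E
  have hb1 : ∀ i, ‖T (b i : L2 G)‖ ^ 2 = lam := by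
    intro i
    have h1 := hAin (b i : L2 G)
    have h2 := Module.End.mem_eigenspace_iff.mp (b i).2.2
    have h3 : ‖(b i : L2 G)‖ = 1 := b.orthonormal.1 i
    rw [h2, inner_smul_left, inner_self_eq_norm_sq_to_K, h3] at h1
    simp only [Complex.conj_ofReal, Complex.coe_algebraMap, Complex.ofReal_one, one_pow,
      mul_one] at h1
    exact_mod_cast h1.symm
  have hsum : (finrank ℂ E : ℝ) * lam ≤ β := by
    have h1 : (finrank ℂ E : ℝ) * lam = ∑ i, ‖T (b i : L2 G)‖ ^ 2 := by simp [hb1]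
    have h2 : ∀ g : G, ∑ i, ‖T (b i : L2 G) g‖ ^ 2 ≤ β / Fintype.card G := by
      intro g
      have h3 : ∀ i, T (b i : L2 G) g = ⟪rt g⁻¹ (vec ν), (b i : L2 G)⟫_ℂ := by
        intro i
        rw [conv_eq_inner, ← (rt g).inner_map_map (rt g⁻¹ (vec ν)), ← rt_mul, mul_inv_cancel,
          rt_one]
      simp only [h3]
      rw [← norm_proj_sq_eq_sum, hEinv.proj_comm ⟨g⁻¹, rfl⟩, LinearIsometryEquiv.norm_map]
      exact hPν
    rw [h1]
    simp only [EuclideanSpace.norm_sq_eq]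
    rw [Finset.sum_comm]
    refine (Finset.sum_le_sum fun g _ => h2 g).trans (le_of_eq ?_)
    simp only [Finset.sum_const, Finset.card_univ, nsmul_eq_mul]
    field_simp
  have hlam0 : 0 ≤ lam := by
    have : 0 < ‖φ‖ ^ 2 := by have := norm_pos_iff.mpr h0; positivity
    by_contra hneg
    nlinarith [sq_nonneg ‖T φ‖]
  have h7 : ((D₁ : ℝ) + 1) * lam ≤ β := by
    refine le_trans (mul_le_mul_of_nonneg_right ?_ hlam0) hsum
    exact_mod_cast hEdim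
  calc ((D₁ : ℝ) + 1) * ‖conv ν φ‖ ^ 2 ≤ (D₁ + 1) * (lam * ‖φ‖ ^ 2) :=
        mul_le_mul_of_nonneg_left hle (by positivity)
    _ = ((D₁ + 1) * lam) * ‖φ‖ ^ 2 := by ring
    _ ≤ _ := mul_le_mul_of_nonneg_right h7 (by positivity)

end Crest.Agent.R155
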