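import Crest.Agent.R155.RepDefs

/-! Row 155: commuting families of unitaries, and the dimension of the small part of the regular
representation. -/

set_option autoImplicit false

namespace Crest.Agent.R155

open Module Finset
open scoped InnerProductSpace

namespace ProdAux

variable {V : Type*} [NormedAddCommGroup V] [InnerProductSpace ℂ V] [FiniteDimensional ℂ V]

theorem exists_min {S : Set (V ≃ₗᵢ[ℂ] V)} {X : Submodule ℂ V} (hX : X ≠ ⊥) (hI : Inv S X) :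
    ∃ Y ≤ X, Y ≠ ⊥ ∧ Inv S Y ∧ ∀ Z ≤ Y, Z ≠ ⊥ → Inv S Z → Z = Y := by
  obtain ⟨Y, hY, hmin⟩ := exists_minimalFor_of_wellFoundedLT
    (fun Y : Submodule ℂ V => Y ≤ X ∧ Y ≠ ⊥ ∧ Inv S Y) (fun Y => finrank ℂ Y) ⟨X, le_rfl, hX, hI⟩
  refine ⟨Y, hY.1, hY.2.1, hY.2.2, fun Z hZ h0 hZI => ?_⟩
  exact Submodule.eq_of_le_of_finrank_le hZ
    (hmin ⟨hZ.trans hY.1, h0, hZI⟩ (Submodule.finrank_mono hZ))

theorem schur {S : Set (V ≃ₗᵢ[ℂ] V)} {Y : Submodule ℂ V} (h0 : Y ≠ ⊥) (hY : Inv S Y)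
    (hmin : ∀ Z ≤ Y, Z ≠ ⊥ → Inv S Z → Z = Y) (φ ψ : V →ₗ[ℂ] V)
    (hφ : ∀ u ∈ S, ∀ z ∈ Y, φ (u z) = u (φ z)) (hψ : ∀ u ∈ S, ∀ z ∈ Y, ψ (u z) = u (ψ z)) :
    ∃ c : ℂ, ∀ z' ∈ Y, ∀ z ∈ Y, ⟪φ z, ψ z'⟫_ℂ = c * ⟪z, z'⟫_ℂ := by
  have : Nontrivial Y := Submodule.nontrivial_iff_ne_bot.2 h0
  obtain ⟨c, hc⟩ := Module.End.exists_eigenvalue
    (LinearMap.adjoint (φ ∘ₗ Y.subtype) ∘ₗ (ψ ∘ₗ Y.subtype) : Y →ₗ[ℂ] Y)
  obtain ⟨z₀, hz₀⟩ := hc.exists_hasEigenvector
  let Z : Submodule ℂ V :=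
    { carrier := {z' | z' ∈ Y ∧ ∀ z ∈ Y, ⟪φ z, ψ z'⟫_ℂ = c * ⟪z, z'⟫_ℂ}
      add_mem' := fun {a b} ha hb => ⟨Y.add_mem ha.1 hb.1, fun z hz => by
        rw [map_add, inner_add_right, inner_add_right, ha.2 z hz, hb.2 z hz, mul_add]⟩
      zero_mem' := ⟨Y.zero_mem, fun z _ => by simp⟩
      smul_mem' := fun t a ha => ⟨Y.smul_mem t ha.1, fun z hz => by
        rw [map_smul, inner_smul_right, inner_smul_right, ha.2 z hz, mul_left_comm]⟩ }
  have hZ : Z = Y := by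
    refine hmin Z (fun z hz => hz.1) ((Submodule.ne_bot_iff _).2 ⟨z₀, ⟨z₀.2, fun z hz => ?_⟩,
      fun h => hz₀.2 (Subtype.ext h)⟩) fun u hu z' hz' => ⟨hY u hu _ hz'.1, fun z hz => ?_⟩
    · have h1 := LinearMap.adjoint_inner_right (φ ∘ₗ Y.subtype) ⟨z, hz⟩ (ψ z₀)
      have h2 := hz₀.apply_eq_smul
      simp only [LinearMap.comp_apply, Submodule.subtype_apply] at h1 h2
      rw [← h1, h2, inner_smul_right]
      rfl
    · have hw := hY.symm hu hz
      rw [← u.apply_symm_apply z, hφ u hu _ hw, hψ u hu _ hz'.1, u.inner_map_map, u.inner_map_map,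
        hz'.2 _ hw]
  exact ⟨c, fun z' hz' => (hZ.ge hz').2⟩

end ProdAux

open ProdAux

theorem prodBound : ProdStmt := by
  intro V _ _ _ r D
  induction r with
  | zero =>
    intro S X _ hX _ _
    rw [pow_zero]
    exact Nat.one_le_iff_ne_zero.2 fun h => hX (Submodule.finrank_eq_zero.1 h)
  | succ r ih =>
    intro S X hcomm hX hI hD
    obtain ⟨Y, hYX, hY0, hY, hmin⟩ := exists_min hX (hI 0)
    obtain ⟨y, hyY, hy⟩ : ∃ y ∈ Y, ‖y‖ = 1 := by
      obtain ⟨y, hy, hy0⟩ := (Submodule.ne_bot_iff _).1 hY0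
      exact ⟨(‖y‖⁻¹ : ℂ) • y, Y.smul_mem _ hy, norm_smul_inv_norm hy0⟩
    let M : Submodule ℂ (V →ₗ[ℂ] V) :=
      { carrier := {φ | (∀ z ∈ Y, φ z ∈ X) ∧ ∀ u ∈ S 0, ∀ z ∈ Y, φ (u z) = u (φ z)}
        add_mem' := fun {a b} ha hb => ⟨fun z hz => X.add_mem (ha.1 z hz) (hb.1 z hz),
          fun u hu z hz => by simp [ha.2 u hu z hz, hb.2 u hu z hz]⟩
        zero_mem' := ⟨fun z _ => X.zero_mem, fun u _ z _ => by simp⟩
        smul_mem' := fun t a ha => ⟨fun z hz => X.smul_mem t (ha.1 z hz),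
          fun u hu z hz => by simp [ha.2 u hu z hz]⟩ }
    let N : Submodule ℂ V := M.map (LinearMap.applyₗ y)
    have hNX : N ≤ X := by
      rintro _ ⟨φ, hφ, rfl⟩
      exact hφ.1 y hyY
    have h1 : (D + 1) ^ r ≤ finrank ℂ N := by
      refine ih (fun j => S j.succ) N
        (fun i j hij => hcomm _ _ fun h => hij (Fin.succ_injective _ h))
        ((Submodule.ne_bot_iff _).2 ⟨y, ⟨LinearMap.id, ⟨hYX, fun _ _ _ _ => rfl⟩, rfl⟩, ?_⟩)
        (fun j => ?_) fun j Z hZ => hD _ Z (hZ.trans hNX)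
      · rintro rfl
        simp at hy
      · rintro u' hu' _ ⟨φ, hφ, rfl⟩
        refine ⟨u'.toLinearEquiv.toLinearMap ∘ₗ φ,
          ⟨fun z hz => hI _ u' hu' _ (hφ.1 z hz), fun u hu z hz => ?_⟩, rfl⟩
        change u' (φ (u z)) = u (u' (φ z))
        rw [hφ.2 u hu z hz, hcomm _ _ (Fin.succ_ne_zero j) u' hu' u hu]
    have h2 := hD 0 Y hYX hY0 hY
    set b := stdOrthonormalBasis ℂ N
    set e := stdOrthonormalBasis ℂ Y
    choose φ hφ hφy using fun i => (b i).2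
    have h3 : Orthonormal ℂ fun p : Fin (finrank ℂ N) × Fin (finrank ℂ Y) =>
        (⟨φ p.1 (e p.2), (hφ p.1).1 _ (e p.2).2⟩ : X) := by
      rw [orthonormal_iff_ite]
      rintro ⟨i, k⟩ ⟨j, l⟩
      obtain ⟨c, hc⟩ := schur hY0 hY hmin (φ i) (φ j) (hφ i).2 (hφ j).2
      have a1 := hc y hyY y hyY
      have a2 : ⟪φ i y, φ j y⟫_ℂ = if i = j then 1 else 0 := by
        rw [← orthonormal_iff_ite.1 b.orthonormal i j, Submodule.coe_inner, ← hφy i, ← hφy j]
        rfl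
      have a3 : ⟪(e k : V), (e l : V)⟫_ℂ = if k = l then 1 else 0 :=
        orthonormal_iff_ite.1 e.orthonormal k l
      rw [inner_self_eq_norm_sq_to_K, hy, a2] at a1
      rw [Submodule.coe_inner, hc _ (e l).2 _ (e k).2, a3]
      simp only [RCLike.ofReal_one, one_pow, mul_one] at a1
      rw [← a1]
      by_cases hij : i = j <;> by_cases hkl : k = l <;> simp [hij, hkl]
    have h4 := h3.linearIndependent.fintype_card_le_finrank
    rw [Fintype.card_prod, Fintype.card_fin, Fintype.card_fin] at h4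
    rw [pow_succ]
    exact (Nat.mul_le_mul h1 h2).trans h4

namespace ProdAux

variable {G : Type} [Group G] [Fintype G]

/-- Class functions. -/
def Cl (G : Type) [Group G] [Fintype G] : Submodule ℂ (L2 G) where
  carrier := {φ | ∀ x, lt x φ = rt x φ}
  add_mem' := fun {a b} ha hb x => by rw [map_add, map_add, ha x, hb x]
  zero_mem' := fun x => by rw [map_zero, map_zero]
  smul_mem' := fun t a ha x => by rw [map_smul, map_smul, ha x]

theorem finrank_Cl : finrank ℂ (Cl G) ≤ Nat.card (ConjClasses G) := by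
  classical
  let Φ : (ConjClasses G → ℂ) →ₗ[ℂ] L2 G :=
    { toFun := fun f => WithLp.toLp 2 fun g => f (ConjClasses.mk g)
      map_add' := fun _ _ => rfl
      map_smul' := fun _ _ => rfl }
  have h1 : Cl G ≤ LinearMap.range Φ := by
    intro φ hφ
    refine ⟨fun c => φ (Function.surjInv ConjClasses.mk_surjective c), ?_⟩
    ext g
    obtain ⟨x, hx⟩ := isConj_iff.1 (ConjClasses.mk_eq_mk_iff_isConj.1
      (Function.surjInv_eq ConjClasses.mk_surjective (ConjClasses.mk g)))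
    have h2 := congrArg (fun ψ : L2 G => ψ (x⁻¹ * g)) (hφ x)
    simp only [lt_apply, rt_apply, mul_inv_cancel_left] at h2
    change φ (Function.surjInv ConjClasses.mk_surjective (ConjClasses.mk g)) = φ g
    generalize Function.surjInv ConjClasses.mk_surjective (ConjClasses.mk g) = a at hx
    rw [h2, ← hx, show x⁻¹ * (x * a * x⁻¹) * x = a by group]
  refine (Submodule.finrank_mono h1).trans ((LinearMap.finrank_range_le Φ).trans (le_of_eq ?_))
  rw [finrank_fintype_fun_eq_card, Nat.card_eq_fintype_card]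

theorem finrank_coeff {W : Submodule ℂ (L2 G)} (hW : Inv (Set.range (rt (G := G))) W) :
    finrank ℂ (Submodule.span ℂ {v | ∃ g : G, ∃ w ∈ W, v = lt g w}) ≤ finrank ℂ W ^ 2 := by
  let ρ : G → (W →ₗ[ℂ] W) := fun x =>
    (rt x).toLinearEquiv.toLinearMap.restrict fun w hw => hW _ ⟨x, rfl⟩ w hw
  let Φ : Module.Dual ℂ (W →ₗ[ℂ] W) →ₗ[ℂ] L2 G :=
    { toFun := fun f => WithLp.toLp 2 fun x => f (ρ x)
      map_add' := fun _ _ => rfl
      map_smul' := fun _ _ => rfl }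
  have h1 : Submodule.span ℂ {v | ∃ g : G, ∃ w ∈ W, v = lt g w} ≤ LinearMap.range Φ := by
    rw [Submodule.span_le]
    rintro _ ⟨g, w, hw, rfl⟩
    refine ⟨{ toFun := fun T => (T ⟨w, hw⟩ : L2 G) g
              map_add' := fun _ _ => rfl
              map_smul' := fun _ _ => rfl }, ?_⟩
    ext x
    change rt x w g = lt g w x
    simp
  refine (Submodule.finrank_mono h1).trans ((LinearMap.finrank_range_le Φ).trans (le_of_eq ?_))
  rw [Subspace.dual_finrank_eq, finrank_linearMap, sq]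

theorem dim_aux (D n : ℕ) : ∀ Y : Submodule ℂ (L2 G), finrank ℂ Y = n → Y ≤ SmallG G D →
    Inv (Set.range (rt (G := G))) Y → Inv (Set.range (lt (G := G))) Y →
    finrank ℂ Y ≤ D ^ 2 * finrank ℂ (Y ⊓ Cl G : Submodule ℂ (L2 G)) := by
  classical
  induction n using Nat.strong_induction_on with
  | _ n ih =>
  intro Y hn hYS hr hl
  by_cases hY0 : Y = ⊥
  · rw [Submodule.finrank_eq_zero.2 hY0]
    exact Nat.zero_le _
  obtain ⟨W₀, hW₀, hD, hW0⟩ : ∃ W₀ : Submodule ℂ (L2 G), Inv (Set.range (rt (G := G))) W₀ ∧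
      finrank ℂ W₀ ≤ D ∧ W₀.map Y.starProjection.toLinearMap ≠ ⊥ := by
    by_contra hc
    push Not at hc
    have h1 : SmallG G D ≤ LinearMap.ker Y.starProjection.toLinearMap :=
      small_le fun W hW hD => LinearMap.le_ker_iff_map.2 (hc W hW hD)
    refine hY0 ((Submodule.eq_bot_iff _).2 fun y hy => ?_)
    have h2 : Y.starProjection y = 0 := h1 (hYS hy)
    rwa [Submodule.starProjection_eq_self_iff.2 hy] at h2
  set W := W₀.map Y.starProjection.toLinearMap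
  have hW : Inv (Set.range (rt (G := G))) W :=
    hW₀.map _ fun u hu => ⟨u, hu, hr.proj_comm hu⟩
  have hWY : W ≤ Y := by
    rintro _ ⟨w, -, rfl⟩
    exact Y.starProjection_apply_mem w
  have hWD : finrank ℂ W ≤ D := (Submodule.finrank_map_le _ _).trans hD
  have h1 := (finrank_coeff hW).trans (Nat.pow_le_pow_left hWD 2)
  set Y₁ := Submodule.span ℂ {v | ∃ g : G, ∃ w ∈ W, v = lt g w}
  have hY₁ : Y₁ ≤ Y := by
    rw [Submodule.span_le]
    rintro _ ⟨g, w, hw, rfl⟩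
    exact hl _ ⟨g, rfl⟩ _ (hWY hw)
  have hr₁ : Inv (Set.range (rt (G := G))) Y₁ := by
    refine inv_span ?_
    rintro _ ⟨x, rfl⟩ _ ⟨g, w, hw, rfl⟩
    exact Submodule.subset_span ⟨g, _, hW _ ⟨x, rfl⟩ w hw, (lt_rt g x w).symm⟩
  have hl₁ : Inv (Set.range (lt (G := G))) Y₁ := by
    refine inv_span ?_
    rintro _ ⟨x, rfl⟩ _ ⟨g, w, hw, rfl⟩
    exact Submodule.subset_span ⟨g * x, w, hw, by ext; simp [mul_assoc]⟩
  set p := Y₁.starProjection (EuclideanSpace.single (1 : G) (1 : ℂ)) with hp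
  have hp1 : p ∈ Y₁ := Y₁.starProjection_apply_mem _
  have hpC : p ∈ Cl G := by
    intro x
    rw [hp, ← hl₁.proj_comm ⟨x, rfl⟩, ← hr₁.proj_comm ⟨x, rfl⟩]
    congr 1
    ext g
    simp [mul_eq_one_comm (a := x)]
  have hp0 : p ≠ 0 := by
    intro h0
    have a1 := (Submodule.starProjection_apply_eq_zero_iff _).1 h0
    refine hW0 ((Submodule.eq_bot_iff _).2 fun w hw => ?_)
    ext g
    have a2 := (Submodule.mem_orthogonal' _ _).1 a1 _
      (Submodule.subset_span ⟨g, w, hw, rfl⟩)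
    simpa [EuclideanSpace.inner_single_left] using a2
  have h2 := Submodule.finrank_add_inf_finrank_orthogonal hY₁
  have h3 : 0 < finrank ℂ Y₁ := Nat.pos_of_ne_zero fun h =>
    hp0 ((Submodule.eq_bot_iff _).1 (Submodule.finrank_eq_zero.1 h) p hp1)
  have h4 := ih _ (by omega) (Y₁ᗮ ⊓ Y) rfl (inf_le_right.trans hYS) (hr₁.orthogonal.inf hr)
    (hl₁.orthogonal.inf hl)
  have h5 : (Y₁ᗮ ⊓ Y) ⊓ Cl G < Y ⊓ Cl G := by
    refine lt_of_le_of_ne (inf_le_inf_right _ inf_le_right) fun h => hp0 ?_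
    have a1 : p ∈ Y₁ ⊓ Y₁ᗮ := ⟨hp1, (h.ge ⟨hY₁ hp1, hpC⟩).1.1⟩
    rwa [Submodule.inf_orthogonal_eq_bot, Submodule.mem_bot] at a1
  have h6 := Nat.mul_le_mul_left (D ^ 2)
    (Nat.succ_le_of_lt (Submodule.finrank_lt_finrank_of_lt h5))
  rw [Nat.mul_succ] at h6
  omega

end ProdAux

theorem dimBound : DimStmt := by
  intro G _ _ D
  refine (dim_aux D _ (SmallG G D) rfl le_rfl (inv_small _ _) (inv_small_of_comm ?_ D)).trans
    (Nat.mul_le_mul_left _ ((Submodule.finrank_mono inf_le_right).trans finrank_Cl))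
  rintro _ ⟨x, rfl⟩ _ ⟨y, rfl⟩ v
  exact (lt_rt y x v).symm

end Crest.Agent.R155
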