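import Crest.Agent.R155.RepDefs

/-! Row 155: the small part of the regular representation of a symmetric group. -/

set_option autoImplicit false

namespace Crest.Agent.R155

open Module Finset Equiv

namespace SymAux

theorem pow_le_choose {t : ℕ} (ht : 1 ≤ t) (m : ℕ) : t ^ m ≤ (t * m).choose m := by
  induction m with
  | zero => simp
  | succ m ih =>
    obtain ⟨s, rfl⟩ := Nat.exists_eq_add_of_le' ht
    have h1 := Nat.add_one_mul_choose_eq ((s + 1) * m + s) m
    have e : (s + 1) * m + s + 1 = (s + 1) * (m + 1) := by ring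
    rw [e] at h1
    have h2 : ((s + 1) * (m + 1)).choose (m + 1) = (s + 1) * ((s + 1) * m + s).choose m := by
      apply Nat.eq_of_mul_eq_mul_right (Nat.succ_pos m)
      rw [Nat.succ_eq_add_one, ← h1]; ring
    rw [h2, pow_succ']
    exact Nat.mul_le_mul_left _ (ih.trans (Nat.choose_le_choose m (Nat.le_add_right _ _)))

variable {α : Type} [Fintype α] [DecidableEq α]

/-- Indicator of `g ∘ I = J`. -/
noncomputable def eV {m : ℕ} (p : (Fin m → α) × (Fin m → α)) : L2 (Perm α) :=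
  WithLp.toLp 2 fun g => if (fun i => g (p.1 i)) = p.2 then 1 else 0

/-- Functions of level at most `m`. -/
noncomputable def Lev (α : Type) [Fintype α] [DecidableEq α] (m : ℕ) : Submodule ℂ (L2 (Perm α)) :=
  Submodule.span ℂ (Set.range (eV (α := α) (m := m)))

/-- Multiplication by the sign. -/
noncomputable def Msgn (α : Type) [Fintype α] [DecidableEq α] : L2 (Perm α) →ₗ[ℂ] L2 (Perm α) where
  toFun φ := WithLp.toLp 2 fun g => ((Perm.sign g : ℤ) : ℂ) * φ g
  map_add' x y := by ext g; simp [mul_add]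
  map_smul' c x := by ext g; simp; ring

theorem Msgn_apply (φ : L2 (Perm α)) (g : Perm α) :
    Msgn α φ g = ((Perm.sign g : ℤ) : ℂ) * φ g := rfl

theorem sgn_sq (g : Perm α) : ((Perm.sign g : ℤ) : ℂ) * ((Perm.sign g : ℤ) : ℂ) = 1 := by
  rcases Int.units_eq_one_or (Perm.sign g) with h | h <;> simp [h]

theorem Msgn_Msgn (φ : L2 (Perm α)) : Msgn α (Msgn α φ) = φ := by
  ext g; rw [Msgn_apply, Msgn_apply, ← mul_assoc, sgn_sq, one_mul]

theorem rt_Msgn (x : Perm α) (φ : L2 (Perm α)) :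
    rt x (Msgn α φ) = ((Perm.sign x : ℤ) : ℂ) • Msgn α (rt x φ) := by
  ext g
  simp only [rt_apply, Msgn_apply, PiLp.smul_apply, smul_eq_mul, Perm.sign_mul, Units.val_mul,
    Int.cast_mul]
  ring

theorem inv_map_Msgn {X : Submodule ℂ (L2 (Perm α))} (h : Inv (Set.range rt) X) :
    Inv (Set.range rt) (X.map (Msgn α)) := by
  rintro _ ⟨x, rfl⟩ _ ⟨v, hv, rfl⟩
  rw [rt_Msgn]
  exact Submodule.smul_mem _ _ ⟨_, h _ ⟨x, rfl⟩ v hv, rfl⟩

theorem inv_Lev (m : ℕ) : Inv (Set.range rt) (Lev α m) := by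
  refine inv_span ?_
  rintro _ ⟨x, rfl⟩ _ ⟨p, rfl⟩
  refine Submodule.subset_span ⟨(fun i => x (p.1 i), p.2), ?_⟩
  ext g
  simp [eV]

theorem finrank_Lev (m : ℕ) : finrank ℂ (Lev α m) ≤ (Fintype.card α ^ m) ^ 2 := by
  refine (finrank_range_le_card _).trans (le_of_eq ?_)
  simp [sq]

/-- `Lev` together with its twist by the sign. -/
noncomputable def Lev' (α : Type) [Fintype α] [DecidableEq α] (m : ℕ) :
    Submodule ℂ (L2 (Perm α)) := Lev α m ⊔ (Lev α m).map (Msgn α)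

theorem inv_Lev' (m : ℕ) : Inv (Set.range rt) (Lev' α m) :=
  (inv_Lev m).sup (inv_map_Msgn (inv_Lev m))

theorem finrank_Lev' (m : ℕ) : finrank ℂ (Lev' α m) ≤ 2 * (Fintype.card α ^ m) ^ 2 := by
  have h1 := Submodule.finrank_add_le_finrank_add_finrank (Lev α m) ((Lev α m).map (Msgn α))
  have h2 := Submodule.finrank_map_le (Msgn α) (Lev α m)
  have h3 := finrank_Lev (α := α) m
  unfold Lev'
  omega

theorem fixed_of_swaps {A : Finset α} {v : L2 (Perm α)}
    (h : ∀ x ∈ A, ∀ y ∈ A, rt (swap x y) v = v) (f : Perm α) (hf : ∀ x, x ∉ A → f x = x) :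
    rt f v = v := by
  induction hn : f.support.card using Nat.strong_induction_on generalizing f with
  | _ n ih =>
    by_cases h1 : f = 1
    · rw [h1, rt_one]
    obtain ⟨x, hx⟩ : ∃ x, f x ≠ x := by
      by_contra h2; push Not at h2; exact h1 (Equiv.ext h2)
    have hxA : x ∈ A := by by_contra h2; exact hx (hf x h2)
    have hfA : f x ∈ A := by by_contra h2; exact hx (f.injective (hf _ h2))
    have h3 := ih _ (hn ▸ Perm.card_support_swap_mul hx) (swap x (f x) * f) (fun y hy => by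
      rw [Perm.mul_apply, hf y hy]
      exact swap_apply_of_ne_of_ne (fun e => hy (e ▸ hxA)) (fun e => hy (e ▸ hfA))) rfl
    rw [← swap_mul_self_mul x (f x) f, rt_mul, h3, h x hxA _ hfA]

theorem mem_Lev [Nonempty α] {A : Finset α} {m : ℕ} (hm : Fintype.card α ≤ A.card + m)
    {v : L2 (Perm α)} (h : ∀ x ∈ A, ∀ y ∈ A, rt (swap x y) v = v) : v ∈ Lev α m := by
  classical
  have hc : (Aᶜ).card ≤ m := by rw [card_compl]; omega
  let I : Fin m → α := fun j =>
    if h : (j : ℕ) < (Aᶜ).card then ((Aᶜ).equivFin.symm ⟨j, h⟩ : α) else Classical.arbitrary α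
  have hI : ∀ x, x ∉ A → ∃ j, I j = x := fun x hx => by
    have hx' : x ∈ Aᶜ := mem_compl.2 hx
    refine ⟨⟨(Aᶜ).equivFin ⟨x, hx'⟩, lt_of_lt_of_le (Fin.is_lt _) hc⟩, ?_⟩
    simp [I]
  have hv : ∀ g g' : Perm α, (fun i => g (I i)) = (fun i => g' (I i)) → v g' = v g := by
    intro g g' e
    have := fixed_of_swaps h (g⁻¹ * g') fun x hx => by
      obtain ⟨j, rfl⟩ := hI x hx
      rw [Perm.mul_apply, ← congrFun e j]; simp
    have h2 := congrArg (fun φ : L2 (Perm α) => φ g) this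
    simpa using h2
  let F : (Fin m → α) → ℂ := fun J =>
    if h : ∃ g : Perm α, (fun i => g (I i)) = J then v h.choose else 0
  have e : v = ∑ J, F J • eV (I, J) := by
    ext g
    have hex : ∃ g' : Perm α, (fun i => g' (I i)) = fun i => g (I i) := ⟨g, rfl⟩
    simp only [WithLp.ofLp_sum, Finset.sum_apply, PiLp.smul_apply, eV, smul_eq_mul, mul_ite,
      mul_one, mul_zero, Finset.sum_ite_eq, mem_univ, if_true, F, dif_pos hex]
    exact hv _ _ hex.choose_spec
  rw [e]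
  exact Submodule.sum_mem _ fun J _ =>
    Submodule.smul_mem _ _ (Submodule.subset_span ⟨(I, J), rfl⟩)

theorem core (hW : WeightStmt) {t D : ℕ} (ht : 3 ≤ t) (h1 : 4 * t * t ≤ Fintype.card α)
    (h2 : Fintype.card α ≤ t ^ 4) (hD : D < 2 ^ t) {X : Submodule ℂ (L2 (Perm α))}
    (hX : Inv (Set.range rt) X) (hXD : finrank ℂ X ≤ D) {B : Finset α} (hB : B.card = 4 * t)
    {v : L2 (Perm α)} (hv : v ∈ X) (hv0 : v ≠ 0) (hfix : ∀ x ∈ B, ∀ y ∈ B, rt (swap x y) v = v) :
    ∃ w ∈ X, w ≠ 0 ∧ w ∈ Lev α (Nat.log (Fintype.card α) (D ^ 4)) := by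
  classical
  set n := Fintype.card α with hn
  let P : ℕ → Prop := fun a => ∃ A : Finset α, A.card = a ∧ ∃ v ∈ X, v ≠ 0 ∧
    ∀ x ∈ A, ∀ y ∈ A, reg (Perm α) (swap x y) v = v
  have h4 : 4 * t ≤ n := by nlinarith
  have hP : P (4 * t) := ⟨B, hB, v, hv, hv0, hfix⟩
  have ha1 : 4 * t ≤ Nat.findGreatest P n := Nat.le_findGreatest h4 hP
  have ha2 : Nat.findGreatest P n ≤ n := Nat.findGreatest_le n
  have ha3 : P (Nat.findGreatest P n) := Nat.findGreatest_spec h4 hP
  set a := Nat.findGreatest P n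
  have hmax : ∀ A : Finset α, A.card = a + 1 → ∀ v ∈ X,
      (∀ x ∈ A, ∀ y ∈ A, reg (Perm α) (swap x y) v = v) → v = 0 := by
    intro A hA w hw hf
    by_contra h0
    exact Nat.findGreatest_is_greatest (P := P) (Nat.lt_succ_self a)
      ((le_of_eq hA.symm).trans (card_le_univ A)) ⟨A, hA, w, hw, h0, hf⟩
  have hm : n - a < t := by
    by_contra h5
    have h6 := hW _ α (reg (Perm α)) X a t hX ha1 (by omega) ha3 hmax
    have h7 := (pow_le_choose (t := 2) (by norm_num) t).trans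
      (Nat.choose_le_choose t (show 2 * t ≤ (a + t) / 2 by omega))
    omega
  have h6 := hW _ α (reg (Perm α)) X a (n - a) hX (by omega) (by omega) ha3 hmax
  have h7 : t * (n - a) ≤ (a + (n - a)) / 2 := by
    have := Nat.mul_le_mul_left t hm.le
    rw [mul_assoc] at h1
    omega
  have h8 : t ^ (n - a) ≤ D :=
    ((pow_le_choose (by omega) _).trans (Nat.choose_le_choose _ h7)).trans (h6.trans hXD)
  have h9 : n ^ (n - a) ≤ D ^ 4 := by
    refine (Nat.pow_le_pow_left h2 _).trans ?_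
    rw [← pow_mul, mul_comm, pow_mul]
    exact Nat.pow_le_pow_left h8 4
  have h10 := Nat.le_log_of_pow_le (show 1 < n by omega) h9
  obtain ⟨A, hA, w, hw, hw0, hf⟩ := ha3
  have : Nonempty α := Fintype.card_pos_iff.1 (by omega)
  exact ⟨w, hw, hw0, mem_Lev (A := A) (by omega) hf⟩

theorem meet (hP : ProdStmt) (hW : WeightStmt) {t D : ℕ} (ht : 3 ≤ t)
    (h1 : 4 * t * t ≤ Fintype.card α) (h2 : Fintype.card α ≤ t ^ 4) (hD : D < 2 ^ t)
    {X : Submodule ℂ (L2 (Perm α))} (hX : Inv (Set.range rt) X) (hX0 : X ≠ ⊥)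
    (hXD : finrank ℂ X ≤ D) :
    ∃ w ∈ X, w ≠ 0 ∧ w ∈ Lev' α (Nat.log (Fintype.card α) (D ^ 4)) := by
  obtain ⟨ι⟩ : Nonempty (Fin t × Fin (4 * t) ↪ α) :=
    Function.Embedding.nonempty_of_card_le (by simpa [mul_comm] using h1)
  let B : Fin t → Finset α := fun j => univ.image fun i => ι (j, i)
  have hB : ∀ j, (B j).card = 4 * t := fun j => by
    rw [card_image_of_injective _ fun i i' h => (Prod.ext_iff.1 (ι.injective h)).2]; simp
  have hdis : ∀ i j, i ≠ j → ∀ x ∈ B i, ∀ y ∈ B j, x ≠ y := by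
    intro i j hij x hx y hy e
    obtain ⟨a, -, rfl⟩ := mem_image.1 hx
    obtain ⟨b, -, rfl⟩ := mem_image.1 hy
    exact hij (Prod.ext_iff.1 (ι.injective e)).1
  let S : Fin t → Set (L2 (Perm α) ≃ₗᵢ[ℂ] L2 (Perm α)) := fun j =>
    {u | ∃ x ∈ B j, ∃ y ∈ B j, u = rt (swap x y)}
  obtain ⟨j, Y, hYX, hY0, hY, hY1⟩ : ∃ j, ∃ Y ≤ X, Y ≠ ⊥ ∧ Inv (S j) Y ∧ finrank ℂ Y ≤ 1 := by
    by_contra hc
    push Not at hc
    have := hP _ t 1 S X ?_ hX0 (fun j => hX.mono ?_) hc
    · exact absurd (this.trans hXD) (not_le.2 hD)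
    · rintro i j hij _ ⟨x, hx, y, hy, rfl⟩ _ ⟨z, hz, w, hw, rfl⟩ v
      rw [← rt_mul, ← rt_mul, mul_swap_eq_swap_mul,
        swap_apply_of_ne_of_ne (hdis i j hij x hx z hz).symm (hdis i j hij y hy z hz).symm,
        swap_apply_of_ne_of_ne (hdis i j hij x hx w hw).symm (hdis i j hij y hy w hw).symm]
    · rintro _ ⟨x, -, y, -, rfl⟩; exact ⟨_, rfl⟩
  obtain ⟨v, hv⟩ := finrank_le_one_iff.1 hY1
  have hv0 : (v : L2 (Perm α)) ≠ 0 := fun h => hY0 ((Submodule.eq_bot_iff _).2 fun w hw => by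
    obtain ⟨c, hc⟩ := hv ⟨w, hw⟩
    have := congrArg Subtype.val hc
    simpa [h] using this.symm)
  have hc : ∀ x y, ∃ c : ℂ, x ∈ B j → y ∈ B j → rt (swap x y) (v : L2 (Perm α)) = c • v := by
    intro x y
    by_cases h : x ∈ B j ∧ y ∈ B j
    · obtain ⟨c, hc⟩ := hv ⟨_, hY _ ⟨x, h.1, y, h.2, rfl⟩ _ v.2⟩
      exact ⟨c, fun _ _ => (congrArg Subtype.val hc).symm⟩
    · exact ⟨0, fun h1 h2 => absurd ⟨h1, h2⟩ h⟩
  choose c hc using hc
  have hinj : ∀ a b : ℂ, a • (v : L2 (Perm α)) = b • v → a = b := fun a b h =>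
    smul_left_injective ℂ hv0 h
  have c2 : ∀ x ∈ B j, ∀ y ∈ B j, c x y * c x y = 1 := fun x hx y hy => hinj _ _ (by
    rw [mul_smul, ← hc x y hx hy, ← map_smul, ← hc x y hx hy, ← rt_mul, swap_mul_self, rt_one,
      one_smul])
  have cs : ∀ x ∈ B j, ∀ y ∈ B j, c x y = c y x := fun x hx y hy => hinj _ _ (by
    rw [← hc x y hx hy, ← hc y x hy hx, swap_comm])
  have c3 : ∀ x ∈ B j, ∀ y ∈ B j, ∀ z ∈ B j, x ≠ y → x ≠ z → c x y = c x z := by
    intro x hx y hy z hz hxy hxz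
    rw [cs x hx z hz]
    refine hinj _ _ ?_
    rw [← hc z x hz hx, ← swap_mul_swap_mul_swap hxy hxz, rt_mul, rt_mul, hc y z hy hz, map_smul,
      hc x y hx hy, map_smul, map_smul, hc y z hy hz, smul_smul, smul_smul]
    congr 1
    linear_combination (-c x y) * c2 y hy z hz
  obtain ⟨x0, hx0, y0, hy0, hxy0⟩ := one_lt_card.1 (show 1 < (B j).card by rw [hB]; omega)
  have c4 : ∀ x ∈ B j, ∀ y ∈ B j, x ≠ y → c x y = c x0 y0 := by
    intro x hx y hy hxy
    by_cases h : x = x0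
    · subst h; exact c3 x hx y hy y0 hy0 hxy hxy0
    · rw [c3 x hx y hy x0 hx0 hxy h, cs x hx x0 hx0, c3 x0 hx0 x hx y0 hy0 (Ne.symm h) hxy0]
  rcases mul_self_eq_one_iff.1 (c2 x0 hx0 y0 hy0) with h | h
  · obtain ⟨w, hw, hw0, hwL⟩ := core hW ht h1 h2 hD hX hXD (hB j) (hYX v.2) hv0 (fun x hx y hy => by
      by_cases hxy : x = y
      · rw [hxy, swap_self]; exact rt_one _
      · rw [hc x y hx hy, c4 x hx y hy hxy, h, one_smul])
    exact ⟨w, hw, hw0, Submodule.mem_sup_left hwL⟩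
  · obtain ⟨_, ⟨w, hw, rfl⟩, hw0, hwL⟩ := core hW ht h1 h2 hD (inv_map_Msgn hX)
      ((Submodule.finrank_map_le _ _).trans hXD) (hB j) (v := Msgn α v) ⟨v, hYX v.2, rfl⟩
      (fun h0 => hv0 (by rw [← Msgn_Msgn (v : L2 (Perm α)), h0, map_zero])) (fun x hx y hy => by
      by_cases hxy : x = y
      · rw [hxy, swap_self]; exact rt_one _
      · rw [rt_Msgn, hc x y hx hy, c4 x hx y hy hxy, h, Perm.sign_swap hxy]; simp)
    exact ⟨w, hw, fun h0 => hw0 (by rw [h0, map_zero]),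
      Submodule.mem_sup_right ⟨_, hwL, Msgn_Msgn w⟩⟩

theorem small_le_Lev' (hP : ProdStmt) (hW : WeightStmt) {D : ℕ}
    (ht : 3 ≤ Nat.sqrt (Fintype.card α) / 2) (hD : D < 2 ^ (Nat.sqrt (Fintype.card α) / 2)) :
    SmallG (Perm α) D ≤ Lev' α (Nat.log (Fintype.card α) (D ^ 4)) := by
  have h1 := Nat.sqrt_le (Fintype.card α)
  have h2 := Nat.lt_succ_sqrt (Fintype.card α)
  set q := Nat.sqrt (Fintype.card α)
  set t := q / 2 with htq
  have h3 : 2 * t ≤ q := by omega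
  have h4 : q + 1 ≤ t * t := by
    have : q + 1 ≤ 2 * t + 2 := by omega
    nlinarith
  refine small_le fun W hWi hWD => le_of_forall_meet hWi (inv_Lev' _) fun X hX hX0 hXD =>
    meet hP hW ht (by nlinarith) ?_ hD hX hX0 (hXD.trans hWD)
  have := Nat.mul_le_mul h4 h4
  rw [Nat.succ_eq_add_one] at h2
  nlinarith

end SymAux

open SymAux

theorem symDim (hP : ProdStmt) (hD : DimStmt) (hW : WeightStmt) (hC : ClassStmt) : SymDimStmt := by
  intro α _ _ D
  have h1 := (hD (Perm α) D).trans (Nat.mul_le_mul_left _ (hC α))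
  rcases Nat.eq_zero_or_pos D with rfl | hD0
  · simpa using h1
  have hp : ∀ a b : ℕ, a ≤ b → D ^ a ≤ D ^ b := fun a b h => Nat.pow_le_pow_right hD0 h
  by_cases ht : 3 ≤ Nat.sqrt (Fintype.card α) / 2
  · by_cases hD2 : D < 2 ^ (Nat.sqrt (Fintype.card α) / 2)
    · have h2 := (Submodule.finrank_mono (small_le_Lev' hP hW ht hD2)).trans (finrank_Lev' _)
      have h3 := Nat.pow_le_pow_left
        (Nat.pow_log_le_self (Fintype.card α) (pow_pos hD0 4).ne') 2
      rw [← pow_mul D] at h3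
      have h4 := hp (4 * 2) 14 (by norm_num)
      omega
    · have h2 : 2 ^ (6 * Nat.sqrt (Fintype.card α) + 12) ≤
          2 ^ 18 * (2 ^ (Nat.sqrt (Fintype.card α) / 2)) ^ 12 := by
        rw [← pow_mul, ← pow_add]
        exact Nat.pow_le_pow_right (by norm_num) (by omega)
      have h3 := Nat.pow_le_pow_left (not_lt.1 hD2) 12
      calc _ ≤ D ^ 2 * (2 ^ 18 * D ^ 12) :=
            h1.trans (Nat.mul_le_mul_left _ (h2.trans (Nat.mul_le_mul_left _ h3)))
        _ = 2 ^ 18 * D ^ 14 := by ring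
        _ ≤ _ := Nat.mul_le_mul_right _ (by norm_num)
  · have h2 : 2 ^ (6 * Nat.sqrt (Fintype.card α) + 12) ≤ 2 ^ 42 :=
      Nat.pow_le_pow_right (by norm_num) (by omega)
    rw [mul_comm]
    exact h1.trans (Nat.mul_le_mul (hp 2 14 (by norm_num)) h2)

theorem symLow (hP : ProdStmt) (_hD : DimStmt) (hW : WeightStmt) (_hC : ClassStmt) :
    SymLowStmt := by
  intro α _ _ D h36 hD4
  have hq : 6 ≤ Nat.sqrt (Fintype.card α) := Nat.le_sqrt.2 (by omega)
  have ht : 3 ≤ Nat.sqrt (Fintype.card α) / 2 := by omega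
  have hD2 : D < 2 ^ (Nat.sqrt (Fintype.card α) / 2) := by
    have h2 := Nat.lt_succ_sqrt (Fintype.card α)
    set q := Nat.sqrt (Fintype.card α)
    set t := q / 2 with htq
    have h4 : q + 1 ≤ t * t := by
      have : q + 1 ≤ 2 * t + 2 := by omega
      nlinarith
    have h5 := Nat.mul_le_mul h4 h4
    rw [Nat.succ_eq_add_one] at h2
    have h6 : D ^ 4 < t ^ 4 := by nlinarith
    exact (lt_of_pow_lt_pow_left₀ 4 (Nat.zero_le _) h6).trans Nat.lt_two_pow_self
  have h := small_le_Lev' hP hW ht hD2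
  rw [Nat.log_of_lt hD4] at h
  have e : ∀ p : (Fin 0 → α) × (Fin 0 → α), eV p = oneV _ := fun p => by
    ext g; simp [eV, oneV, Subsingleton.elim (fun i => g (p.1 i)) p.2]
  have h0 : Lev α 0 ≤ Submodule.span ℂ {oneV (Perm α)} := by
    refine Submodule.span_le.2 ?_
    rintro _ ⟨p, rfl⟩
    rw [e]; exact Submodule.subset_span rfl
  refine h.trans (sup_le (h0.trans (Submodule.span_mono (by simp))) ?_)
  refine (Submodule.map_mono h0).trans ?_
  rw [Submodule.map_span, Set.image_singleton]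
  have : Msgn α (oneV _) = sgnV α := by ext g; simp [Msgn_apply, oneV, sgnV]
  rw [this]
  exact Submodule.span_mono (by simp)

end Crest.Agent.R155
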