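import Crest.Agent.R155.RepDefs

/-! Row 155 (Thorp shuffle): representations of a symmetric group of a given level are large. -/

set_option autoImplicit false

namespace Crest.Agent.R155

open Module Finset Equiv
open scoped InnerProductSpace

namespace Weight

variable {V : Type} [NormedAddCommGroup V] [InnerProductSpace ℂ V]

/-- A symmetric operator that expands `u` expands its whole orbit. -/
theorem pow_le_norm {Y : Module.End ℂ V} (hY : ∀ v w, ⟪Y v, w⟫_ℂ = ⟪v, Y w⟫_ℂ) {u : V} {c : ℝ}
    (hc : 0 ≤ c) (h : c * ‖u‖ ≤ ‖Y u‖) (N : ℕ) : c ^ N * ‖u‖ ≤ ‖(Y ^ N) u‖ := by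
  have h1 : ∀ n, c * ‖(Y ^ n) u‖ ≤ ‖Y ((Y ^ n) u)‖ := by
    intro n
    induction n with
    | zero => simpa using h
    | succ n ih =>
      rw [pow_succ', Module.End.mul_apply]
      set w := (Y ^ n) u
      have h2 : ‖Y w‖ * ‖Y w‖ ≤ ‖w‖ * ‖Y (Y w)‖ := by
        rw [← inner_self_eq_norm_mul_norm (𝕜 := ℂ), hY]
        exact re_inner_le_norm _ _
      rcases (norm_nonneg (Y w)).eq_or_lt with h0 | h0
      · rw [← h0, mul_zero]; exact norm_nonneg _
      · refine le_of_mul_le_mul_left ?_ h0
        have h3 := mul_le_mul_of_nonneg_left h2 hc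
        have h4 := mul_le_mul_of_nonneg_right ih (norm_nonneg (Y (Y w)))
        nlinarith
  induction N with
  | zero => simp
  | succ N ih =>
    rw [pow_succ' Y, Module.End.mul_apply, pow_succ', mul_assoc]
    exact (mul_le_mul_of_nonneg_left ih hc).trans (h1 N)

theorem growth {x C y : ℝ} (hx : 0 < x) (hC : 0 ≤ C) (hy : 0 ≤ y) (s : ℕ)
    (h : ∀ N : ℕ, ((s : ℝ) + 1) ^ N * x ≤ C * ((s : ℝ) ^ N * y)) : False := by
  have hK : 0 < C * y + 1 := by positivity
  have hs1 : (0 : ℝ) < s + 1 := by positivity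
  obtain ⟨N, hN'⟩ := exists_pow_lt_of_lt_one (div_pos hx hK)
    (show (s : ℝ) / (s + 1) < 1 by rw [div_lt_one hs1]; linarith)
  rw [div_pow, div_lt_div_iff₀ (by positivity) hK] at hN'
  have h1 := h N
  have h2 : (0 : ℝ) ≤ (s : ℝ) ^ N := by positivity
  nlinarith

variable {α : Type} [Fintype α] [DecidableEq α] (ρ : Perm α →* (V ≃ₗᵢ[ℂ] V))

/-- The representation as linear maps. -/
def R (g : Perm α) : Module.End ℂ V := (ρ g).toLinearEquiv.toLinearMap

omit [Fintype α] [DecidableEq α] in
theorem R_apply (g : Perm α) (v : V) : R ρ g v = ρ g v := rfl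

omit [Fintype α] [DecidableEq α] in
theorem R_mul (g h : Perm α) : R ρ (g * h) = R ρ g * R ρ h := by
  ext v
  simp [R_apply]

omit [Fintype α] [DecidableEq α] in
theorem R_one : R ρ 1 = 1 := by
  ext v
  simp [R_apply]

omit [Fintype α] [DecidableEq α] in
theorem norm_R (g : Perm α) (v : V) : ‖R ρ g v‖ = ‖v‖ := (ρ g).norm_map v

omit [Fintype α] [DecidableEq α] in
theorem inner_R (g : Perm α) (v w : V) : ⟪R ρ g v, R ρ g w⟫_ℂ = ⟪v, w⟫_ℂ :=
  (ρ g).inner_map_map v w

omit [Fintype α] in
theorem R_swap_swap (x y : α) : R ρ (swap x y) * R ρ (swap x y) = 1 := by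
  rw [← R_mul, swap_mul_self, R_one]

omit [Fintype α] in
theorem R_swap_symm (x y : α) (v w : V) : ⟪R ρ (swap x y) v, w⟫_ℂ = ⟪v, R ρ (swap x y) w⟫_ℂ := by
  rw [← inner_R ρ (swap x y), ← Module.End.mul_apply, R_swap_swap, Module.End.one_apply]

omit [Fintype α] in
theorem commute_swap {g : Perm α} {x y : α} (hx : g x = x) (hy : g y = y) :
    Commute (R ρ g) (R ρ (swap x y)) := by
  change _ = _
  rw [← R_mul, ← R_mul, mul_swap_eq_swap_mul, hx, hy]

/-- `v` is fixed by all permutations of `A`. -/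
def Fx (A : Finset α) (v : V) : Prop := ∀ g : Perm α, (∀ x, x ∉ A → g x = x) → R ρ g v = v

variable {ρ}

theorem fx_of_swap {A : Finset α} {v : V} (h : ∀ x ∈ A, ∀ y ∈ A, ρ (swap x y) v = v) :
    Fx ρ A v := by
  intro g
  induction hn : g.support.card using Nat.strong_induction_on generalizing g with
  | _ n ih =>
    intro hg
    by_cases h1 : g = 1
    · rw [h1, R_one, Module.End.one_apply]
    obtain ⟨x, hx⟩ : ∃ x, g x ≠ x := by
      by_contra hc
      push Not at hc
      exact h1 (Equiv.ext hc)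
    have hxA : x ∈ A := by
      by_contra hc
      exact hx (hg x hc)
    have hgA : g x ∈ A := by
      by_contra hc
      exact hx (g.injective (hg _ hc))
    have h2 := ih _ (hn ▸ Perm.card_support_swap_mul hx) (swap x (g x) * g) rfl fun z hz => by
      rw [Perm.mul_apply, hg z hz, swap_apply_of_ne_of_ne]
      · exact fun e => hz (e ▸ hxA)
      · exact fun e => hz (e ▸ hgA)
    have h3 : g = swap x (g x) * (swap x (g x) * g) := by rw [swap_mul_self_mul]
    rw [h3, R_mul, Module.End.mul_apply, h2]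
    exact h x hxA _ hgA

omit [Fintype α] in
theorem Fx.swap {A : Finset α} {v : V} (h : Fx ρ A v) {x y : α} (hx : x ∈ A) (hy : y ∈ A) :
    R ρ (swap x y) v = v :=
  h _ fun _ hz => swap_apply_of_ne_of_ne (fun e => hz (e ▸ hx)) (fun e => hz (e ▸ hy))

omit [Fintype α] [DecidableEq α] in
theorem Fx.conj {A : Finset α} {v : V} (h : Fx ρ A v) (g : Perm α) :
    Fx ρ (A.map g.toEmbedding) (R ρ g v) := by
  intro k hk
  have h1 := h (g⁻¹ * k * g) fun x hx => by
    rw [Perm.mul_apply, Perm.mul_apply, hk (g x), Perm.inv_eq_iff_eq]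
    simpa using hx
  rw [← Module.End.mul_apply, ← R_mul, show k * g = g * (g⁻¹ * k * g) by group, R_mul,
    Module.End.mul_apply, h1]

omit [Fintype α] [DecidableEq α] in
theorem Fx.map {A A' : Finset α} {v : V} (h : Fx ρ A v) (hA : A' ⊆ A) {Z : Module.End ℂ V}
    (hZ : ∀ g : Perm α, (∀ x, x ∉ A' → g x = x) → Commute (R ρ g) Z) : Fx ρ A' (Z v) := by
  intro g hg
  rw [← Module.End.mul_apply, (hZ g hg).eq, Module.End.mul_apply,
    h g fun x hx => hg x fun hx' => hx (hA hx')]

variable (ρ) in
/-- Sums of transpositions with a common point. -/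
noncomputable def JM (B : Finset α) (b : α) : Module.End ℂ V := ∑ x ∈ B, R ρ (swap x b)

omit [Fintype α] in
theorem JM_commute {B : Finset α} {b : α} {g : Perm α} (hb : g b = b)
    (hg : ∀ x, x ∈ B ↔ g x ∈ B) : Commute (R ρ g) (JM ρ B b) := by
  change _ = _
  rw [JM, mul_sum, sum_mul]
  refine sum_equiv g hg fun x _ => ?_
  rw [← R_mul, ← R_mul, mul_swap_eq_swap_mul, hb]

omit [Fintype α] in
theorem JM_symm (B : Finset α) (b : α) (v w : V) : ⟪JM ρ B b v, w⟫_ℂ = ⟪v, JM ρ B b w⟫_ℂ := by
  simp only [JM, LinearMap.sum_apply, sum_inner, inner_sum, R_swap_symm]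

omit [Fintype α] in
theorem norm_JM_le (B : Finset α) (b : α) (v : V) : ‖JM ρ B b v‖ ≤ B.card * ‖v‖ := by
  rw [JM, LinearMap.sum_apply]
  refine (norm_sum_le _ _).trans (le_of_eq ?_)
  simp [norm_R]

omit [Fintype α] in
theorem JM_mem {X : Submodule ℂ V} (hX : Inv (Set.range ρ) X) (B : Finset α) (b : α) {v : V}
    (hv : v ∈ X) : JM ρ B b v ∈ X := by
  rw [JM, LinearMap.sum_apply]
  exact sum_mem fun x _ => hX _ ⟨_, rfl⟩ v hv

omit [Fintype α] [DecidableEq α] in
theorem mem_iff_of_fix {B : Finset α} {g : Perm α} (hg : ∀ x, x ∉ B → g x = x) (x : α) :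
    x ∈ B ↔ g x ∈ B := by
  constructor
  · intro hx
    by_contra hc
    exact hc ((g.injective (hg _ hc)).symm ▸ hx)
  · intro hx
    by_contra hc
    exact hc (hg x hc ▸ hx)

omit [Fintype α] in
theorem Fx.insert {A : Finset α} {v : V} (h : Fx ρ A v) (b : α) :
    Fx ρ (insert b A) (JM ρ (insert b A) b v) := by
  intro g hg
  rw [JM, LinearMap.sum_apply, map_sum]
  refine sum_equiv g (mem_iff_of_fix hg) fun x hx => ?_
  have hgx := (mem_iff_of_fix hg x).1 hx
  have h1 := h (Equiv.swap (g x) b * g * Equiv.swap x b) fun z hz => by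
    by_cases hzb : z = b
    · simp [hzb]
    · have hz' : z ∉ Insert.insert b A := by simp [hzb, hz]
      rw [Perm.mul_apply, Perm.mul_apply, swap_apply_of_ne_of_ne (fun e : z = x => hz' (e ▸ hx)) hzb,
        hg z hz', swap_apply_of_ne_of_ne (fun e : z = g x => hz' (e ▸ hgx)) hzb]
  rw [← Module.End.mul_apply, ← R_mul, show g * Equiv.swap x b =
    Equiv.swap (g x) b * (Equiv.swap (g x) b * g * Equiv.swap x b) by
      rw [mul_assoc (Equiv.swap (g x) b) g, swap_mul_self_mul], R_mul, Module.End.mul_apply, h1]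

section Pairs

variable {ι : Type} [DecidableEq ι] {xs ys : ι → α}

/-- Disjoint pairs of points. -/
structure Pairs (xs ys : ι → α) : Prop where
  x_inj : Function.Injective xs
  y_inj : Function.Injective ys
  ne : ∀ i j, xs i ≠ ys j

omit [Fintype α] [DecidableEq ι] in
theorem Pairs.commute (h : Pairs xs ys) (i j : ι) :
    Commute (R ρ (swap (xs i) (ys i))) (R ρ (swap (xs j) (ys j))) := by
  by_cases hij : j = i
  · rw [hij]
  · exact commute_swap ρ (swap_apply_of_ne_of_ne (h.x_inj.ne hij) (h.ne j i))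
      (swap_apply_of_ne_of_ne (h.ne i j).symm (h.y_inj.ne hij))

variable (ρ) in
/-- The antisymmetriser in the pairs of `S`. -/
noncomputable def Q (h : Pairs xs ys) (S : Finset ι) : Module.End ℂ V :=
  S.noncommProd (fun i => 1 - R ρ (swap (xs i) (ys i))) fun i _ j _ _ =>
    (Commute.one_left _).sub_left ((Commute.one_right _).sub_right (h.commute i j))

omit [Fintype α] [DecidableEq ι] in
theorem Q_empty (h : Pairs xs ys) : Q ρ h ∅ = 1 := rfl

omit [Fintype α] in
theorem Q_insert (h : Pairs xs ys) {S : Finset ι} {j : ι} (hj : j ∉ S) :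
    Q ρ h (insert j S) = (1 - R ρ (swap (xs j) (ys j))) * Q ρ h S :=
  noncommProd_insert_of_notMem _ _ _ _ hj

omit [Fintype α] [DecidableEq ι] in
theorem Q_commute (h : Pairs xs ys) {S : Finset ι} {Y : Module.End ℂ V}
    (hY : ∀ i ∈ S, Commute Y (R ρ (swap (xs i) (ys i)))) : Commute Y (Q ρ h S) :=
  noncommProd_commute _ _ _ _ fun i hi => (Commute.one_right _).sub_right (hY i hi)

omit [Fintype α] in
theorem Q_mem {X : Submodule ℂ V} (hX : Inv (Set.range ρ) X) (h : Pairs xs ys) (S : Finset ι)
    {v : V} (hv : v ∈ X) : Q ρ h S v ∈ X := by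
  induction S using Finset.induction_on with
  | empty => exact hv
  | insert j S hj ih =>
    rw [Q_insert h hj, Module.End.mul_apply, LinearMap.sub_apply]
    exact X.sub_mem ih (hX _ ⟨_, rfl⟩ _ ih)

omit [Fintype α] in
theorem swap_Q (h : Pairs xs ys) {S : Finset ι} {j : ι} (hj : j ∈ S) (v : V) :
    R ρ (swap (xs j) (ys j)) (Q ρ h S v) = -Q ρ h S v := by
  rw [← insert_erase hj, Q_insert h (notMem_erase j S), ← Module.End.mul_apply, ← mul_assoc,
    mul_sub, R_swap_swap, mul_one, ← neg_sub, neg_mul, LinearMap.neg_apply]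

omit [Fintype α] in
theorem Q_ne_zero [FiniteDimensional ℂ V] {X : Submodule ℂ V} (hX : Inv (Set.range ρ) X)
    {A : Finset α} (hA : ∀ b ∉ A, ∀ v ∈ X, Fx ρ (insert b A) v → v = 0) (h : Pairs xs ys)
    {v : V} (hvX : v ∈ X) (hv : Fx ρ A v) (hv0 : v ≠ 0) (S : Finset ι)
    (hx : ∀ i ∈ S, xs i ∈ A) (hy : ∀ i ∈ S, ys i ∉ A) (hS : 4 * S.card ≤ A.card) :
    Q ρ h S v ≠ 0 := by
  induction S using Finset.induction_on with
  | empty => exact hv0
  | insert j S hj ih =>
    rw [card_insert_of_notMem hj] at hS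
    have hx' : ∀ i ∈ S, xs i ∈ A := fun i hi => hx i (mem_insert_of_mem hi)
    have hy' : ∀ i ∈ S, ys i ∉ A := fun i hi => hy i (mem_insert_of_mem hi)
    have hu0 := ih hx' hy' (by omega)
    set u := Q ρ h S v with hu
    set b := ys j with hb
    have hbA : b ∉ A := hy j (mem_insert_self _ _)
    have hbS : b ∉ S.image ys := by
      intro hc
      obtain ⟨i, hi, e⟩ := mem_image.1 hc
      exact hj (h.y_inj e ▸ hi)
    intro h0
    rw [Q_insert h hj, Module.End.mul_apply, LinearMap.sub_apply, Module.End.one_apply,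
      sub_eq_zero, ← hu, ← hb] at h0
    set A' := A \ S.image xs with hA'
    have hjA' : xs j ∈ A' := by
      refine mem_sdiff.2 ⟨hx j (mem_insert_self _ _), fun hc => ?_⟩
      obtain ⟨i, hi, e⟩ := mem_image.1 hc
      exact hj (h.x_inj e ▸ hi)
    have huA' : Fx ρ A' u := hv.map sdiff_subset fun g hg => Q_commute h fun i hi =>
      commute_swap ρ (hg _ fun hc => (mem_sdiff.1 hc).2 (mem_image_of_mem _ hi))
        (hg _ fun hc => hy' i hi (mem_sdiff.1 hc).1)
    have hfix : ∀ x ∈ insert b A', R ρ (swap x b) u = u := by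
      intro x hxA
      rcases mem_insert.1 hxA with rfl | hxA
      · rw [swap_self, ← Perm.one_def, R_one, Module.End.one_apply]
      · have h1 := huA'.swap hjA' hxA
        have h2 : swap (xs j) x * swap (xs j) b = swap x b * swap (xs j) x := by
          rw [mul_swap_eq_swap_mul, swap_apply_left, swap_apply_of_ne_of_ne]
          · exact (h.ne j j).symm
          · exact fun e => hbA (e ▸ (mem_sdiff.1 hxA).1)
        have h3 := congrArg (fun g => R ρ g u) h2
        simp only [R_mul, Module.End.mul_apply, ← h0, h1] at h3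
        exact h3.symm
    set B := insert b A ∪ S.image ys with hB
    set Y := JM ρ B b with hY
    have hdisj : Disjoint (insert b A) (S.image ys) := by
      rw [disjoint_right]
      intro z hz hz'
      rcases mem_insert.1 hz' with rfl | hz'
      · exact hbS hz
      · obtain ⟨i, hi, rfl⟩ := mem_image.1 hz
        exact hy' i hi hz'
    -- the action of `Y` on the fixed vectors of `A`
    have hstep : ∀ w ∈ X, Fx ρ A w → Y w ∈ X ∧ Fx ρ A (Y w) ∧ ‖Y w‖ ≤ S.card * ‖w‖ := by
      intro w hwX hw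
      refine ⟨JM_mem hX _ _ hwX, hw.map subset_rfl fun g hg => JM_commute (hg b hbA)
        (mem_iff_of_fix fun z hz => hg z fun hz' =>
          hz (mem_union_left _ (mem_insert_of_mem hz'))), ?_⟩
      have h1 := hA b hbA _ (JM_mem hX _ _ hwX) (hw.insert b)
      have h2 : Y w = JM ρ (S.image ys) b w := by
        rw [hY, JM, hB, sum_union hdisj, LinearMap.add_apply, ← JM, h1, zero_add, ← JM]
      rw [h2]
      refine (norm_JM_le _ _ _).trans (mul_le_mul_of_nonneg_right ?_ (norm_nonneg _))
      exact_mod_cast card_image_le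
    have hpow : ∀ N : ℕ, (Y ^ N) v ∈ X ∧ Fx ρ A ((Y ^ N) v) ∧
        ‖(Y ^ N) v‖ ≤ (S.card : ℝ) ^ N * ‖v‖ := by
      intro N
      induction N with
      | zero => exact ⟨hvX, hv, by simp⟩
      | succ N ihN =>
        obtain ⟨h1, h2, h3⟩ := hstep _ ihN.1 ihN.2.1
        rw [pow_succ' Y, Module.End.mul_apply, pow_succ', mul_assoc]
        exact ⟨h1, h2, h3.trans (mul_le_mul_of_nonneg_left ihN.2.2 (Nat.cast_nonneg _))⟩
    have hYQ : Commute Y (Q ρ h S) := Q_commute h fun i hi => by
      refine (JM_commute (swap_apply_of_ne_of_ne (h.ne i j).symm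
        fun e : b = ys i => hbS (mem_image.2 ⟨i, hi, e.symm⟩))
        (mem_iff_of_fix fun z hz => ?_)).symm
      exact swap_apply_of_ne_of_ne
        (fun e => hz (e ▸ mem_union_left _ (mem_insert_of_mem (hx' i hi))))
        (fun e => hz (e ▸ mem_union_right _ (mem_image_of_mem _ hi)))
    -- the lower bound
    have hsub : insert b A' ⊆ B :=
      (insert_subset_insert _ sdiff_subset).trans subset_union_left
    have hlow : ((S.card : ℝ) + 1) * ‖u‖ ≤ ‖Y u‖ := by
      have h1 : Y u = JM ρ (B \ insert b A') b u + ((insert b A').card : ℂ) • u := by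
        rw [hY, JM, ← sum_sdiff hsub, LinearMap.add_apply, ← JM, LinearMap.sum_apply,
          sum_congr rfl hfix, sum_const, Nat.cast_smul_eq_nsmul]
      have h2 : (B \ insert b A').card ≤ 2 * S.card := by
        have : B \ insert b A' ⊆ S.image xs ∪ S.image ys := by
          intro z hz
          simp only [hB, hA', mem_sdiff, mem_union, mem_insert] at hz ⊢
          tauto
        have h3 := card_le_card this
        have h4 := card_union_le (S.image xs) (S.image ys)
        have h5 : (S.image xs).card ≤ S.card := card_image_le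
        have h6 : (S.image ys).card ≤ S.card := card_image_le
        omega
      have h3 : 3 * S.card + 1 ≤ (insert b A').card := by
        rw [card_insert_of_notMem fun hc => hbA (mem_sdiff.1 hc).1]
        have h4 := le_card_sdiff (S.image xs) A
        have h5 : (S.image xs).card ≤ S.card := card_image_le
        omega
      have h4 := norm_JM_le (ρ := ρ) (B \ insert b A') b u
      have h5 : ‖((insert b A').card : ℂ) • u‖ = (insert b A').card * ‖u‖ := by
        rw [norm_smul, Complex.norm_natCast]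
      have h6 := norm_sub_le (Y u) (JM ρ (B \ insert b A') b u)
      rw [show Y u - JM ρ (B \ insert b A') b u = ((insert b A').card : ℂ) • u by
        rw [h1, add_sub_cancel_left], h5] at h6
      have h7 : ((B \ insert b A').card : ℝ) ≤ 2 * S.card := by exact_mod_cast h2
      have h8 : 3 * (S.card : ℝ) + 1 ≤ (insert b A').card := by exact_mod_cast h3
      have h9 := mul_le_mul_of_nonneg_right h7 (norm_nonneg u)
      have h10 := mul_le_mul_of_nonneg_right h8 (norm_nonneg u)
      linarith
    set C := ‖LinearMap.toContinuousLinearMap (Q ρ h S)‖ with hC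
    have hC0 : 0 ≤ C := norm_nonneg _
    have hN : ∀ N : ℕ, ((S.card : ℝ) + 1) ^ N * ‖u‖ ≤ C * ((S.card : ℝ) ^ N * ‖v‖) := by
      intro N
      refine (pow_le_norm (JM_symm B b) (add_nonneg (Nat.cast_nonneg _) zero_le_one) hlow N).trans ?_
      rw [hu, ← Module.End.mul_apply, (hYQ.pow_left N).eq, Module.End.mul_apply]
      exact ((LinearMap.toContinuousLinearMap (Q ρ h S)).le_opNorm _).trans
        (mul_le_mul_of_nonneg_left (hpow N).2.2 hC0)
    exact growth (norm_pos_iff.2 hu0) hC0 (norm_nonneg v) S.card hN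

end Pairs

end Weight

open Weight in
theorem weightBound : WeightStmt := by
  intro V _ _ _ α _ _ ρ X a k hX hk hak ⟨A₀, hA₀, v₀, hv₀X, hv₀, hfix⟩ hzero
  have hex : ∀ A : Finset α, A.card = a → ∃ v ∈ X, v ≠ 0 ∧ Fx ρ A v := by
    intro A hA
    obtain ⟨g, hg⟩ := Perm.exists_map_finset_eq A₀ A (hA₀.trans hA.symm)
    refine ⟨R ρ g v₀, hX _ ⟨_, rfl⟩ _ hv₀X, fun h => hv₀ ?_, hg ▸ (fx_of_swap hfix).conj g⟩
    rw [← norm_eq_zero, norm_R, norm_eq_zero] at h
    exact h
  obtain ⟨e⟩ : Nonempty (Fin (a + k) ↪ α) := Function.Embedding.nonempty_of_card_le (by simpa)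
  set p := (a + k) / 2 with hp
  let xs : Fin p → α := fun i => e ⟨2 * i, by have := i.2; omega⟩
  let ys : Fin p → α := fun i => e ⟨2 * i + 1, by have := i.2; omega⟩
  have h : Pairs xs ys := by
    refine ⟨fun i j hij => ?_, fun i j hij => ?_, fun i j hij => ?_⟩
    · have := congrArg Fin.val (e.injective hij)
      exact Fin.ext (by simp only at this; omega)
    · have := congrArg Fin.val (e.injective hij)
      exact Fin.ext (by simp only at this; omega)
    · have := congrArg Fin.val (e.injective hij)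
      simp only at this
      omega
  let A : Finset (Fin p) → Finset α := fun S => univ.map e \ S.image ys
  have hxA : ∀ S i, xs i ∈ A S := fun S i => mem_sdiff.2 ⟨mem_map_of_mem _ (mem_univ _), fun hc => by
    obtain ⟨j, -, hj⟩ := mem_image.1 hc
    exact h.ne i j hj.symm⟩
  have hyA : ∀ S, ∀ i ∉ S, ys i ∈ A S := fun S i hi =>
    mem_sdiff.2 ⟨mem_map_of_mem _ (mem_univ _), fun hc => by
      obtain ⟨j, hj, hj'⟩ := mem_image.1 hc
      exact hi (h.y_inj hj' ▸ hj)⟩
  have hcard : ∀ S : Finset (Fin p), S.card = k → (A S).card = a := by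
    intro S hS
    rw [card_sdiff_of_subset, card_map, card_univ, Fintype.card_fin,
      card_image_of_injective _ h.y_inj, hS, Nat.add_sub_cancel]
    intro z hz
    obtain ⟨j, -, rfl⟩ := mem_image.1 hz
    exact mem_map_of_mem _ (mem_univ _)
  have hS : ∀ S : powersetCard k (univ : Finset (Fin p)), (S : Finset (Fin p)).card = k :=
    fun S => (mem_powersetCard.1 S.2).2
  choose v hvX hv0 hv using fun S : powersetCard k (univ : Finset (Fin p)) =>
    hex (A S) (hcard S (hS S))
  let u : powersetCard k (univ : Finset (Fin p)) → X := fun S =>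
    ⟨Q ρ h S (v S), Q_mem hX h S (hvX S)⟩
  have hu : LinearIndependent ℂ u := by
    refine linearIndependent_of_ne_zero_of_inner_eq_zero (fun S h0 => ?_) fun S S' hne => ?_
    · refine Q_ne_zero hX (fun b hb w hwX hw => hzero (insert b (A S)) ?_ w hwX
        fun x hx y hy => hw.swap hx hy) h (hvX S) (hv S) (hv0 S) S (fun i _ => hxA S i)
        (fun i hi hc => (mem_sdiff.1 hc).2 (mem_image_of_mem _ hi)) ?_ (congrArg Subtype.val h0)
      · rw [card_insert_of_notMem hb, hcard S (hS S)]
      · rw [hS S, hcard S (hS S)]; exact hk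
    · obtain ⟨i, hi, hi'⟩ : ∃ i ∈ (S : Finset (Fin p)), i ∉ (S' : Finset (Fin p)) := by
        by_contra hc
        push Not at hc
        exact hne (Subtype.ext (eq_of_subset_of_card_le hc (by rw [hS S, hS S'])))
      have h1 := swap_Q (ρ := ρ) h hi (v S)
      have h2 : R ρ (swap (xs i) (ys i)) (Q ρ h S' (v S')) = Q ρ h S' (v S') := by
        rw [← Module.End.mul_apply, (Q_commute h fun j _ => h.commute i j).eq,
          Module.End.mul_apply, (hv S').swap (hxA S' i) (hyA S' i hi')]
      have h3 := inner_R ρ (swap (xs i) (ys i)) (Q ρ h S (v S)) (Q ρ h S' (v S'))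
      rw [h1, h2, inner_neg_left] at h3
      change ⟪Q ρ h S (v S), Q ρ h S' (v S')⟫_ℂ = 0
      linear_combination (-1 / 2 : ℂ) * h3
  have := hu.fintype_card_le_finrank
  rwa [Fintype.card_coe, card_powersetCard, card_univ, Fintype.card_fin] at this

end Crest.Agent.R155
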