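import Crest.Agent.R155.Mix
import Crest.Agent.R155.Sym
import Crest.Agent.R155.Prod
import Crest.Agent.R155.Class
import Crest.Agent.R155.Weight

/-! Row 155: the mixing bound for the shuffle. -/

set_option autoImplicit false

namespace Crest.Agent.R155

open Crest.ProbabilityR.Shuffle Module Finset TupleAux
open scoped InnerProductSpace

variable {m : ℕ}

theorem mk_iter (t : ℕ) (f : Equiv.Perm (Fin (2 * m)) → ℝ) :
    mk (iterPerm (m := m) t) f = (mk (stepPerm (m := m)))^[t] f := by
  induction t generalizing f with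
  | zero =>
    funext g
    simp only [mk, Function.iterate_zero, id]
    exact (congrArg av (funext fun cs => by simp [iterPerm])).trans (av_const (f g))
  | succ t ih =>
    rw [Function.iterate_succ_apply, ← ih]
    funext g
    simp only [mk, av]
    rw [sum_app, Finset.sum_comm, ← Finset.sum_div, div_div]
    congr 1
    · refine Finset.sum_congr rfl fun cs _ => Finset.sum_congr rfl fun c _ => ?_
      simp [iterPerm, mul_assoc]
    · simp only [Fintype.card_fun, Fintype.card_fin, Fintype.card_bool]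
      push_cast
      ring

/-- The sign as a real number. -/
def sg {α : Type} [Fintype α] [DecidableEq α] (g : Equiv.Perm α) : ℝ :=
  ((Equiv.Perm.sign g : ℤ) : ℝ)

theorem sg_mul {α : Type} [Fintype α] [DecidableEq α] (g h : Equiv.Perm α) :
    sg (g * h) = sg g * sg h := by simp [sg]

theorem sg_sq {α : Type} [Fintype α] [DecidableEq α] (g : Equiv.Perm α) : sg g * sg g = 1 := by
  rcases Int.units_eq_one_or (Equiv.Perm.sign g) with h | h <;> simp [sg, h]

theorem abs_sg {α : Type} [Fintype α] [DecidableEq α] (g : Equiv.Perm α) : |sg g| = 1 := by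
  rcases Int.units_eq_one_or (Equiv.Perm.sign g) with h | h <;> simp [sg, h]

theorem sum_sg {α : Type} [Fintype α] [DecidableEq α] {x y : α} (h : x ≠ y) :
    ∑ g : Equiv.Perm α, sg g = 0 := by
  have := Equiv.sum_comp (Equiv.mulRight (Equiv.swap x y)) (sg (α := α))
  simp only [Equiv.coe_mulRight, sg_mul] at this
  rw [← Finset.sum_mul, show sg (Equiv.swap x y) = -1 by simp [sg, Equiv.Perm.sign_swap h]] at this
  linarith

theorem stepPerm_flip (c : Fin m → Bool) (u : Fin m) :
    stepPerm (Function.update c u (!c u)) = stepPerm c * Equiv.swap (lo u) (hi u) := by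
  rw [← inv_inj, mul_inv_rev, Equiv.swap_inv]
  ext y : 1
  change src (Function.update c u (!c u)) y = Equiv.swap (lo u) (hi u) (src c y)
  by_cases h : sw y = u
  · subst h
    unfold src
    rw [Function.update_self]
    cases c (sw y) <;> cases decide (y.val % 2 = 1) <;> simp
  · rw [src_congr (c' := c) (Function.update_of_ne h _ _), Equiv.swap_apply_of_ne_of_ne]
    · exact fun e => h (sw_eq (Or.inl e))
    · exact fun e => h (sw_eq (Or.inr e))

theorem mk_sg (hm : 0 < m) : mk (stepPerm (m := m)) sg = fun _ => 0 := by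
  funext g
  let u : Fin m := ⟨0, hm⟩
  let e : Equiv.Perm (Fin m → Bool) := Function.Involutive.toPerm
    (fun c => Function.update c u (!c u)) (fun c => by simp)
  have := Equiv.sum_comp e (fun c => sg (stepPerm c * g))
  have h2 : ∀ c, sg (stepPerm (e c) * g) = - sg (stepPerm c * g) := by
    intro c
    change sg (stepPerm (Function.update c u (!c u)) * g) = _
    rw [stepPerm_flip, sg_mul, sg_mul, sg_mul, show sg (Equiv.swap (lo u) (hi u)) = -1 by
      simp [sg, Equiv.Perm.sign_swap (lo_ne_hi u u)]]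
    ring
  simp only [h2, Finset.sum_neg_distrib] at this
  have h3 : ∑ c, sg (stepPerm c * g) = 0 := by linarith
  simp only [mk, av, h3, zero_div]

theorem mk_iter_sg (hm : 0 < m) (t : ℕ) : mk (iterPerm (m := m) (t + 1)) sg 1 = 0 := by
  rw [mk_iter, Function.iterate_succ_apply, mk_sg hm, ← mk_iter]
  exact av_const 0

/-- The blocks. -/
def blk (n : ℕ) (j : Fin 32) : Finset (Fin n) := Finset.univ.filter fun x => x.val % 32 = j.val

theorem blk_card (e : ℕ) (j : Fin 32) : 2 * 2 ^ (e + 4) ≤ 32 * (blk (2 * 2 ^ (e + 4)) j).card := by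
  have h : (Finset.univ : Finset (Fin (2 ^ e))).card ≤ (blk (2 * 2 ^ (e + 4)) j).card := by
    refine Finset.card_le_card_of_injOn (fun i => ⟨32 * i.val + j.val, by
      have := i.isLt
      have := j.isLt
      rw [pow_add]
      omega⟩) ?_ ?_
    · intro i _
      have := j.isLt
      simp only [blk, Finset.coe_filter, Finset.mem_univ, true_and, Set.mem_ofPred_eq]
      omega
    · intro i _ i' _ h
      have := congrArg Fin.val h
      exact Fin.ext (by simp only at this; omega)
  rw [Finset.card_univ, Fintype.card_fin] at h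
  have : 2 * 2 ^ (e + 4) = 32 * 2 ^ e := by ring
  omega

theorem decomp {α : Type} [Fintype α] [DecidableEq α] {x y : α} (hxy : x ≠ y)
    (s : Equiv.Perm α → ℝ) (hs : ∀ g, |s g| ≤ 1) :
    ∃ γ : ℝ, (∀ g, |s g - av s - γ * sg g| ≤ 3) ∧
      vec (fun g => s g - av s - γ * sg g) ∈ (Submodule.span ℂ {oneV _, sgnV α})ᗮ := by
  have hGc : (0 : ℝ) < Fintype.card (Equiv.Perm α) := by exact_mod_cast Fintype.card_pos
  have hsg0 := sum_sg hxy
  let γ : ℝ := av fun g => s g * sg g
  have ha : |av s| ≤ 1 := (abs_av_le hs).trans (av_const 1).le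
  have hγ : |γ| ≤ 1 := (abs_av_le (g := fun _ => 1) fun g => by
    rw [abs_mul, abs_sg, mul_one]; exact hs g).trans (av_const 1).le
  refine ⟨γ, fun g => ?_, ?_⟩
  · have h1 := abs_sub (s g - av s) (γ * sg g)
    have h2 := abs_sub (s g) (av s)
    rw [abs_mul, abs_sg] at h1
    have := hs g
    linarith
  set f : Equiv.Perm α → ℝ := fun g => s g - av s - γ * sg g with hf
  have hf1 : ∑ g, f g = 0 := by
    simp only [f, Finset.sum_sub_distrib, ← Finset.mul_sum, hsg0, Finset.sum_const,
      Finset.card_univ, nsmul_eq_mul, av]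
    field_simp
    ring
  have hf2 : ∑ g, sg g * f g = 0 := by
    have : ∀ g, sg g * f g = s g * sg g - av s * sg g - γ := by
      intro g
      have := sg_sq g
      simp only [f]
      linear_combination (-γ) * this
    simp only [this, Finset.sum_sub_distrib, ← Finset.mul_sum, hsg0, Finset.sum_const,
      Finset.card_univ, nsmul_eq_mul, γ, av]
    field_simp
    ring
  rw [Submodule.mem_orthogonal]
  intro w hw
  obtain ⟨a, b, rfl⟩ := Submodule.mem_span_pair.mp hw
  have e1 : oneV (Equiv.Perm α) = vec fun _ => 1 := by ext g; simp [oneV, vec]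
  have e2 : sgnV α = vec sg := by ext g; simp [sgnV, vec, sg]
  have i1 : ⟪vec (fun _ : Equiv.Perm α => (1 : ℝ)), vec f⟫_ℂ = 0 := by
    rw [inner_vec]
    have := congrArg (fun r : ℝ => (r : ℂ)) hf1
    simpa [vec] using this
  have i2 : ⟪vec (sg : Equiv.Perm α → ℝ), vec f⟫_ℂ = 0 := by
    rw [inner_vec]
    have := congrArg (fun r : ℝ => (r : ℂ)) hf2
    simpa [vec] using this
  rw [inner_add_left, inner_smul_left, inner_smul_left, e1, e2, i1, i2]
  simp

theorem tv_eq (m t : ℕ) : ∃ s : Equiv.Perm (Fin (2 * m)) → ℝ, (∀ g, |s g| ≤ 1) ∧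
    tvFromUniform m t = 1 / 2 * (mk (iterPerm (m := m) t) s 1 - av s) := by
  classical
  let P : Equiv.Perm (Fin (2 * m)) → ℝ := fun g =>
    Crest.FinProb.uniformProb {cs : Fin t → Fin m → Bool | iterPos m t cs = ⇑g}
  let u : ℝ := 1 / ((2 * m).factorial : ℝ)
  have hu : u = 1 / Fintype.card (Equiv.Perm (Fin (2 * m))) := by
    simp only [u, Fintype.card_perm, Fintype.card_fin]
  let s : Equiv.Perm (Fin (2 * m)) → ℝ := fun g => if 0 ≤ P g - u then 1 else -1
  have hs : ∀ g, |s g| ≤ 1 := fun g => by simp only [s]; split_ifs <;> simp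
  have hs' : ∀ g, |P g - u| = s g * (P g - u) := by
    intro g
    simp only [s]
    split_ifs with h
    · rw [abs_of_nonneg h, one_mul]
    · rw [abs_of_neg (not_le.mp h)]; ring
  have hP : ∀ g, P g = lawG (iterPerm (m := m) t) Finset.univ g := by
    intro g
    simp only [P, Crest.FinProb.uniformProb, lawG, av, Finset.mem_univ, true_and,
      Finset.sum_boole, Set.mem_ofPred_eq, ← coe_iterPerm, DFunLike.coe_fn_eq]
  have hsum : ∑ g, |P g - u| = mk (iterPerm (m := m) t) s 1 - av s := by
    simp only [hs', mul_sub, Finset.sum_sub_distrib]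
    congr 1
    · have := sum_lawG (iterPerm (m := m) t) Finset.univ s 1
      simp only [mul_one] at this
      simp only [hP, mul_comm (s _)]
      rw [this]
      simp [mkG, mk]
    · rw [← Finset.sum_mul, hu, av]
      ring
  refine ⟨s, hs, ?_⟩
  rw [← hsum]
  rfl

theorem mk_four (T t : ℕ) (ht : t = T * 4) (f : Equiv.Perm (Fin (2 * m)) → ℝ) :
    (mk (iterPerm (m := m) T))^[4] f = mk (iterPerm (m := m) t) f := by
  rw [mk_iter t, ht, Function.iterate_mul]
  have : mk (iterPerm (m := m) T) = (mk (stepPerm (m := m)))^[T] := funext (mk_iter T)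
  rw [this]

theorem mk_lin (hm : 0 < m) (t : ℕ) (ht : 0 < t) (s : Equiv.Perm (Fin (2 * m)) → ℝ) (a γ : ℝ) :
    mk (iterPerm (m := m) t) (fun g => s g - a - γ * sg g) 1 =
      mk (iterPerm (m := m) t) s 1 - a := by
  have h0 : mk (iterPerm (m := m) t) sg 1 = 0 := by
    obtain ⟨t', rfl⟩ : ∃ t', t = t' + 1 := ⟨t - 1, by omega⟩
    exact mk_iter_sg hm t'
  have : mk (iterPerm (m := m) t) (fun g => s g - a - γ * sg g) 1 =
      av fun cs => (s (iterPerm t cs * 1) + (-a)) + (-γ) * sg (iterPerm (m := m) t cs * 1) := by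
    unfold mk
    congr 1
    funext cs
    ring
  rw [this, av_add, av_add, av_mul, av_const]
  unfold mk at h0 ⊢
  rw [h0]
  ring

theorem exists_good (hW : WalkStmt) (d : ℕ) (hd : 12 ≤ d) :
    ∃ Good : Finset (Fin (400 * (d + 1)) → Fin (2 ^ d) → Bool),
      av (fun ω => if ω ∈ Good then (0 : ℝ) else 1) ≤ 32 * (1 / 2 ^ d) ∧
      ∀ k, ∀ φ ∈ SmallG (Equiv.Perm (Fin (2 * 2 ^ d))) (2 ^ (32 * (k + 1))),
        ‖⟪vec (lawG (iterPerm (m := 2 ^ d) (400 * (d + 1))) Good), φ⟫_ℂ‖ ^ 2 ≤
          (2 ^ (62 + 14 * k) : ℝ) / Fintype.card (Equiv.Perm (Fin (2 * 2 ^ d))) * ‖φ‖ ^ 2 := by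
  have hS := symDim prodBound dimBound weightBound classBound
  have hT := tuple hW d hd
  have hblk : ∀ j, 2 * 2 ^ d ≤ 32 * (blk (2 * 2 ^ d) j).card := by
    obtain ⟨e, rfl⟩ : ∃ e, d = e + 4 := ⟨d - 4, by omega⟩
    exact blk_card e
  choose Gd hG1 hG2 using fun j => hT (blk (2 * 2 ^ d) j) (hblk j)
  let Good : Finset (Fin (400 * (d + 1)) → Fin (2 ^ d) → Bool) :=
    Finset.univ.filter fun cs => ∀ j, cs ∈ Gd j
  refine ⟨Good, ?_, ?_⟩
  · refine le_trans (av_mono (g := fun ω => ∑ j, if ω ∈ Gd j then (0 : ℝ) else 1) ?_) ?_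
    · intro ω
      by_cases h : ω ∈ Good
      · rw [if_pos h]
        exact Finset.sum_nonneg fun j _ => by split_ifs <;> norm_num
      · rw [if_neg h]
        simp only [Good, Finset.mem_filter, Finset.mem_univ, true_and, not_forall] at h
        obtain ⟨j, hj⟩ := h
        refine le_trans ?_ (Finset.single_le_sum (f := fun j => if ω ∈ Gd j then (0 : ℝ) else 1)
          (fun j _ => by split_ifs <;> norm_num) (Finset.mem_univ j))
        simp [hj]
    · rw [← av_sum]
      refine (Finset.sum_le_sum fun j _ => hG1 j).trans (le_of_eq ?_)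
      simp
  · exact pair_perm prodBound hS (iterPerm (m := 2 ^ d) (400 * (d + 1))) (blk (2 * 2 ^ d))
      (by
        intro i j hij
        rw [Finset.disjoint_left]
        intro x hx hx'
        simp only [blk, Finset.mem_filter, Finset.mem_univ, true_and] at hx hx'
        exact hij (Fin.ext (hx.symm.trans hx')))
      Good Gd (fun j cs h => (Finset.mem_filter.mp h).2 j)
      (fun j => by rw [Fintype.card_fin]; convert hG2 j)

theorem tv_le (hW : WalkStmt) (d : ℕ) (hd : 12 ≤ d) :
    tvFromUniform (2 ^ d) (1600 * (d + 1)) ≤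
      192 * (1 / 2) ^ d + 3 * 2 ^ 124 * (1 / 2 ^ 20) ^ (d / 128) := by
  have hL := symLow prodBound dimBound weightBound classBound
  obtain ⟨Good, hp, hβ⟩ := exists_good hW d hd
  have hm : 0 < 2 ^ d := by positivity
  have hbig : 4096 ≤ 2 ^ d := le_trans (by norm_num) (Nat.pow_le_pow_right (by norm_num) hd)
  obtain ⟨s, hs, hfin⟩ := tv_eq (2 ^ d) (1600 * (d + 1))
  obtain ⟨γ, hf, hφ⟩ := decomp (lo_ne_hi (⟨0, hm⟩ : Fin (2 ^ d)) ⟨0, hm⟩) s hs
  have hle := hL (Fin (2 * 2 ^ d)) (2 ^ (32 * (d / 128))) (by rw [Fintype.card_fin]; omega) (by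
    rw [Fintype.card_fin, ← pow_mul]
    have : 2 ^ (32 * (d / 128) * 4) ≤ 2 ^ d := Nat.pow_le_pow_right (by norm_num) (by omega)
    omega)
  have hmix := mix_abstract _ Good hp hβ (d / 128) hf (Submodule.orthogonal_le hle hφ)
  rw [mk_four _ (1600 * (d + 1)) (by ring), mk_lin hm _ (by omega)] at hmix
  rw [hfin, one_div_pow]
  have := le_abs_self (mk (iterPerm (m := 2 ^ d) (1600 * (d + 1))) s 1 - av s)
  linarith

theorem tv_tendsto (hW : WalkStmt) :
    Filter.Tendsto (fun d : ℕ => tvFromUniform (2 ^ d) (1600 * (d + 1))) Filter.atTop (nhds 0) := by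
  have h1 : Filter.Tendsto (fun d : ℕ => (192 : ℝ) * (1 / 2) ^ d +
      3 * 2 ^ 124 * (1 / 2 ^ 20) ^ (d / 128)) Filter.atTop (nhds (192 * 0 + 3 * 2 ^ 124 * 0)) := by
    refine Filter.Tendsto.add (Filter.Tendsto.const_mul _ ?_) (Filter.Tendsto.const_mul _ ?_)
    · exact tendsto_pow_atTop_nhds_zero_of_lt_one (by norm_num) (by norm_num)
    · exact (tendsto_pow_atTop_nhds_zero_of_lt_one (by norm_num) (by norm_num)).comp
        (Nat.tendsto_div_const_atTop (by norm_num))
  rw [mul_zero, mul_zero, add_zero] at h1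
  refine squeeze_zero' (Filter.Eventually.of_forall fun d => ?_) ?_ h1
  · unfold tvFromUniform
    positivity
  · exact Filter.eventually_atTop.mpr ⟨12, fun d hd => tv_le hW d hd⟩

end Crest.Agent.R155
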