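import Crest.Agent.R155.Defs

/-! Row 155 (Thorp shuffle): the many-card collision bound from the one-card estimate. -/

set_option autoImplicit false

namespace Crest.Agent.R155

open Crest.ProbabilityR.Shuffle Finset

namespace TupleAux

variable {m : ℕ}

theorem lo_ne_hi (u u' : Fin m) : lo u ≠ hi u' := by
  intro h
  have := congrArg Fin.val h
  have := u.isLt
  simp only [lo, hi] at *
  omega

theorem lo_inj {u u' : Fin m} (h : lo u = lo u') : u = u' := by
  have := congrArg Fin.val h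
  exact Fin.ext this

theorem hi_inj {u u' : Fin m} (h : hi u = hi u') : u = u' := by
  have := congrArg Fin.val h
  simp only [hi] at this
  exact Fin.ext (by omega)

theorem src_cases (c : Fin m → Bool) (y : Fin (2 * m)) :
    src c y = lo (sw y) ∨ src c y = hi (sw y) := by
  unfold src
  split_ifs <;> simp

theorem sw_eq {c : Fin m → Bool} {z : Fin (2 * m)} {u : Fin m}
    (h : src c z = lo u ∨ src c z = hi u) : sw z = u := by
  rcases src_cases c z with h' | h' <;> rcases h with h | h <;> rw [h'] at h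
  · exact lo_inj h
  · exact absurd h (lo_ne_hi _ _)
  · exact absurd h.symm (lo_ne_hi _ _)
  · exact hi_inj h

theorem src_congr {c c' : Fin m → Bool} {y : Fin (2 * m)} (h : c (sw y) = c' (sw y)) :
    src c y = src c' y := by
  unfold src
  rw [h]

theorem coin_eq {c c' : Fin m → Bool} {y : Fin (2 * m)} (h : src c y = src c' y) :
    c (sw y) = c' (sw y) := by
  have h1 := lo_ne_hi (sw y) (sw y)
  unfold src at h
  revert h
  cases c (sw y) <;> cases c' (sw y) <;> cases decide (y.val % 2 = 1) <;> simp [h1, h1.symm]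

theorem src_flip {c c' : Fin m → Bool} {y : Fin (2 * m)} (h : c' (sw y) = !c (sw y))
    (v : Fin (2 * m) → ℝ) : v (src c y) + v (src c' y) = v (lo (sw y)) + v (hi (sw y)) := by
  unfold src
  rw [h]
  cases c (sw y) <;> cases decide (y.val % 2 = 1) <;> simp [add_comm]

/-- The followed cards have the same trajectories. -/
def Agree (E : Finset (Fin (2 * m))) :
    (t : ℕ) → (Fin t → Fin m → Bool) → (Fin t → Fin m → Bool) → Prop
  | 0, _, _ => True
  | t + 1, cs, cs' => Agree E t (fun i => cs i.castSucc) (fun i => cs' i.castSucc) ∧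
      ∀ a ∈ E, iterPerm (t + 1) cs a = iterPerm (t + 1) cs' a

/-- A function of the trajectories of the followed cards. -/
def Meas (E : Finset (Fin (2 * m))) (t : ℕ) (ψ : (Fin t → Fin m → Bool) → ℝ) : Prop :=
  ∀ cs cs', Agree E t cs cs' → ψ cs = ψ cs'

variable {E : Finset (Fin (2 * m))}

theorem Agree.pos {t : ℕ} {cs cs' : Fin t → Fin m → Bool} (h : Agree E t cs cs') :
    ∀ a ∈ E, iterPerm t cs a = iterPerm t cs' a := by
  cases t with
  | zero => intro a _; rfl
  | succ t => exact h.2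

theorem Agree.rfl' (E : Finset (Fin (2 * m))) :
    ∀ (t : ℕ) (cs : Fin t → Fin m → Bool), Agree E t cs cs
  | 0, _ => trivial
  | t + 1, _ => ⟨Agree.rfl' E t _, fun _ _ => rfl⟩

theorem Agree.mono {E' : Finset (Fin (2 * m))} (hE : E ⊆ E') :
    ∀ {t : ℕ} {cs cs' : Fin t → Fin m → Bool}, Agree E' t cs cs' → Agree E t cs cs'
  | 0, _, _, _ => trivial
  | _ + 1, _, _, h => ⟨Agree.mono hE h.1, fun a ha => h.2 a (hE ha)⟩

theorem iterPerm_succ {t : ℕ} (cs : Fin (t + 1) → Fin m → Bool) (a : Fin (2 * m)) :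
    iterPerm (t + 1) cs a = stepPos m (cs (Fin.last t)) (iterPerm t (fun i => cs i.castSucc) a) :=
  rfl

theorem iterPerm_succ_symm {t : ℕ} (cs : Fin (t + 1) → Fin m → Bool) (y : Fin (2 * m)) :
    (iterPerm (t + 1) cs).symm y =
      (iterPerm t (fun i => cs i.castSucc)).symm (src (cs (Fin.last t)) y) :=
  rfl

theorem VT_succ (v : Fin (2 * m) → ℝ) {t : ℕ} (cs : Fin (t + 1) → Fin m → Bool) :
    VT E v (t + 1) cs = vstep (E.image (iterPerm t (fun i => cs i.castSucc))) (cs (Fin.last t))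
      (VT E v t (fun i => cs i.castSucc)) := rfl

theorem VT_agree (v : Fin (2 * m) → ℝ) :
    ∀ {t : ℕ} {cs cs' : Fin t → Fin m → Bool}, Agree E t cs cs' → VT E v t cs = VT E v t cs'
  | 0, _, _, _ => rfl
  | t + 1, cs, cs', h => by
    have e : E.image (iterPerm t (fun i => cs i.castSucc)) =
        E.image (iterPerm t (fun i => cs' i.castSucc)) :=
      Finset.image_congr fun a ha => h.1.pos a ha
    rw [VT_succ, VT_succ, ← e, ← VT_agree v h.1]
    funext y
    unfold vstep
    split_ifs with hy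
    · congr 1
      apply src_congr
      have : ∃ a ∈ E, iterPerm t (fun i => cs i.castSucc) a = lo (sw y) ∨
          iterPerm t (fun i => cs i.castSucc) a = hi (sw y) := by
        rcases hy with hy | hy <;> obtain ⟨a, ha, e⟩ := Finset.mem_image.1 hy
        · exact ⟨a, ha, Or.inl e⟩
        · exact ⟨a, ha, Or.inr e⟩
      obtain ⟨a, ha, e⟩ := this
      have h2 := h.2 a ha
      rw [iterPerm_succ, iterPerm_succ, ← h.1.pos a ha] at h2
      generalize iterPerm t (fun i => cs i.castSucc) a = x at e h2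
      have h3 := src_stepPos (cs (Fin.last t)) x
      have h4 := src_stepPos (cs' (Fin.last t)) x
      rw [← h2] at h4
      have h5 : sw (stepPos m (cs (Fin.last t)) x) = sw y := sw_eq (by rw [h3]; exact e)
      rw [← h5]
      exact coin_eq (h3.trans h4.symm)
    · rfl

/-- Appending one round of coins. -/
def app {α : Type} {t : ℕ} (cs : Fin t → α) (c : α) : Fin (t + 1) → α :=
  Fin.snoc (α := fun _ => α) cs c

@[simp] theorem app_last {α : Type} {t : ℕ} (cs : Fin t → α) (c : α) :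
    app cs c (Fin.last t) = c := by simp [app]

@[simp] theorem app_init {α : Type} {t : ℕ} (cs : Fin t → α) (c : α) (i : Fin t) :
    app cs c i.castSucc = cs i := by
  simp [app]

theorem sum_app {α : Type} [Fintype α] {t : ℕ} (f : (Fin (t + 1) → α) → ℝ) :
    ∑ cs, f cs = ∑ c, ∑ cs, f (app cs c) := by
  rw [← Fintype.sum_prod_type', ← (Fin.snocEquiv fun _ => α).sum_comp]
  rfl

theorem key (v : Fin (2 * m) → ℝ) : ∀ (t : ℕ) (ψ : (Fin t → Fin m → Bool) → ℝ), Meas E t ψ →
    ∀ y, ∑ cs, ψ cs * v ((iterPerm t cs).symm y) = ∑ cs, ψ cs * VT E v t cs y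
  | 0, _, _, _ => rfl
  | t + 1, ψ, hψ, y => by
    rw [sum_app, sum_app]
    simp only [iterPerm_succ_symm, VT_succ, app_last, app_init]
    have ih : ∀ c, ∑ cs, ψ (app cs c) * v ((iterPerm t cs).symm (src c y)) =
        ∑ cs, ψ (app cs c) * VT E v t cs (src c y) := fun c =>
      key v t (fun cs => ψ (app cs c)) (fun cs cs' h => hψ _ _ ⟨by simpa using h, fun a ha => by
        simp only [iterPerm_succ, app_last, app_init, h.pos a ha]⟩) _
    simp only [ih]
    rw [Finset.sum_comm, Finset.sum_comm (f := fun c cs => ψ (app cs c) * _)]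
    refine Finset.sum_congr rfl fun cs _ => ?_
    unfold vstep
    split_ifs with hy
    · rfl
    · let φ : (Fin m → Bool) → Fin m → Bool := fun c => Function.update c (sw y) (!c (sw y))
      have hφ : Function.Involutive φ := fun c => by simp [φ]
      have h1 : ∀ c, ψ (app cs (φ c)) = ψ (app cs c) := fun c => by
        refine hψ _ _ ⟨by simpa using Agree.rfl' E t cs, fun a ha => ?_⟩
        simp only [iterPerm_succ, app_last, app_init]
        have hx : iterPerm t cs a ∈ E.image (iterPerm t cs) := Finset.mem_image_of_mem _ ha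
        generalize iterPerm t cs a = x at hx
        have h3 := src_stepPos c x
        have h4 : sw (stepPos m c x) ≠ sw y := fun e => hy (by
          have := src_cases c (stepPos m c x)
          rw [h3, e] at this
          rcases this with h | h <;> rw [h] at hx
          · exact Or.inl hx
          · exact Or.inr hx)
        have h5 : src (φ c) (stepPos m c x) = x :=
          (src_congr (by simp [φ, Function.update_of_ne h4])).trans h3
        conv_lhs => rw [← h5, stepPos_src]
      have h2 := Equiv.sum_comp (hφ.toPerm φ) fun c => ψ (app cs c) * VT E v t cs (src c y)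
      simp only [Function.Involutive.coe_toPerm, h1] at h2
      have h3 : ∀ c, ψ (app cs c) * ((VT E v t cs (lo (sw y)) + VT E v t cs (hi (sw y))) / 2) =
          (ψ (app cs c) * VT E v t cs (src c y) + ψ (app cs c) * VT E v t cs (src (φ c) y)) / 2 :=
        fun c => by
          rw [← src_flip (c := c) (c' := φ c) (by simp [φ])]
          ring
      simp only [h3, ← Finset.sum_div, Finset.sum_add_distrib, h2]
      ring

theorem VT_add_smul (v w : Fin (2 * m) → ℝ) (r : ℝ) : ∀ (t : ℕ) (cs : Fin t → Fin m → Bool) y,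
    VT E (fun x => v x + r * w x) t cs y = VT E v t cs y + r * VT E w t cs y
  | 0, _, _ => rfl
  | t + 1, cs, y => by
    simp only [VT_succ, vstep, VT_add_smul v w r t]
    split_ifs <;> ring

theorem sum_src (c : Fin m → Bool) (v : Fin (2 * m) → ℝ) : ∑ y, v (src c y) = ∑ y, v y :=
  Equiv.sum_comp (stepPerm c).symm v

theorem sum_vstep (c : Fin m → Bool) (v : Fin (2 * m) → ℝ) : ∑ y, vstep E c v y = ∑ y, v y := by
  let c' : Fin m → Bool := fun u => if lo u ∈ E ∨ hi u ∈ E then c u else !c u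
  have : ∀ y, vstep E c v y = (v (src c y) + v (src c' y)) / 2 := fun y => by
    unfold vstep
    split_ifs with hy
    · rw [src_congr (c := c') (c' := c) (by simp only [c', if_pos hy])]
      ring
    · rw [src_flip (by simp only [c', if_neg hy])]
  simp only [this, ← Finset.sum_div, Finset.sum_add_distrib, sum_src]
  ring

theorem sum_VT (v : Fin (2 * m) → ℝ) : ∀ (t : ℕ) (cs : Fin t → Fin m → Bool),
    ∑ y, VT E v t cs y = ∑ y, v y
  | 0, _ => rfl
  | t + 1, cs => by rw [VT_succ, sum_vstep, sum_VT v t]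

theorem mem_occ {t : ℕ} (cs : Fin (t + 1) → Fin m → Bool) (y : Fin (2 * m)) :
    y ∈ E.image (iterPerm (t + 1) cs) ↔
      src (cs (Fin.last t)) y ∈ E.image (iterPerm t fun i => cs i.castSucc) := by
  simp only [Finset.mem_image, iterPerm_succ]
  refine exists_congr fun a => and_congr_right fun _ => ⟨fun h => ?_, fun h => ?_⟩
  · rw [← h, src_stepPos]
  · rw [h, stepPos_src]

theorem VT_occ {v : Fin (2 * m) → ℝ} (hv : ∀ a ∈ E, v a = 0) :
    ∀ (t : ℕ) (cs : Fin t → Fin m → Bool), ∀ y ∈ E.image (iterPerm t cs), VT E v t cs y = 0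
  | 0, _, y, hy => hv y (by simpa [iterPerm] using hy)
  | t + 1, cs, y, hy => by
    rw [mem_occ] at hy
    rw [VT_succ, vstep, if_pos, VT_occ hv t _ _ hy]
    rcases src_cases (cs (Fin.last t)) y with h | h <;> rw [h] at hy
    · exact Or.inl hy
    · exact Or.inr hy

theorem VT_free {v : Fin (2 * m) → ℝ} (hv : ∀ a ∉ E, v a = 1) :
    ∀ (t : ℕ) (cs : Fin t → Fin m → Bool), ∀ y ∉ E.image (iterPerm t cs), VT E v t cs y = 1
  | 0, _, y, hy => hv y (by simpa [iterPerm] using hy)
  | t + 1, cs, y, hy => by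
    rw [mem_occ] at hy
    rw [VT_succ, vstep]
    split_ifs with h
    · exact VT_free hv t _ _ hy
    · rw [VT_free hv t _ _ fun h' => h (Or.inl h'), VT_free hv t _ _ fun h' => h (Or.inr h')]
      norm_num

/-- The indicator of the free positions. -/
def fr (E : Finset (Fin (2 * m))) (y : Fin (2 * m)) : ℝ := if y ∈ E then 0 else 1

theorem sum_fr : ∑ y, fr E y = ((2 * m - E.card : ℕ) : ℝ) := by
  have : ∀ y, fr E y = if y ∈ Eᶜ then 1 else 0 := fun y => by simp [fr]
  simp only [this]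
  rw [Finset.sum_boole, Finset.filter_mem_eq_inter, Finset.univ_inter, Finset.card_compl,
    Fintype.card_fin]

theorem sq_split {N : ℝ} (hN : N = ((2 * m - E.card : ℕ) : ℝ)) (h0 : N ≠ 0)
    {w : Fin (2 * m) → ℝ} (hw : ∀ a ∈ E, w a = 0) (hs : ∑ y, w y = 0) (t : ℕ)
    (cs : Fin t → Fin m → Bool) :
    N * ∑ y, VT E (fun x => w x + N⁻¹ * fr E x) t cs y ^ 2 = 1 + N * ∑ y, VT E w t cs y ^ 2 := by
  have h1 : ∀ y, VT E (fun x => w x + N⁻¹ * fr E x) t cs y ^ 2 =
      VT E w t cs y ^ 2 + 2 * N⁻¹ * VT E w t cs y + N⁻¹ ^ 2 * VT E (fr E) t cs y := fun y => by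
    rw [VT_add_smul]
    by_cases hy : y ∈ E.image (iterPerm t cs)
    · rw [VT_occ hw t cs y hy, VT_occ (v := fr E) (fun a ha => if_pos ha) t cs y hy]
      ring
    · rw [VT_free (v := fr E) (fun a ha => if_neg ha) t cs y hy]
      ring
  simp only [h1, Finset.sum_add_distrib, ← Finset.mul_sum, sum_VT, hs, sum_fr, ← hN]
  field_simp
  ring

section Av

variable {ι : Type*} [Fintype ι]

theorem av_mono {f g : ι → ℝ} (h : ∀ i, f i ≤ g i) : av f ≤ av g :=
  div_le_div_of_nonneg_right (Finset.sum_le_sum fun i _ => h i) (Nat.cast_nonneg _)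

theorem av_nonneg {f : ι → ℝ} (h : ∀ i, 0 ≤ f i) : 0 ≤ av f :=
  div_nonneg (Finset.sum_nonneg fun i _ => h i) (Nat.cast_nonneg _)

theorem av_add (f g : ι → ℝ) : av (fun i => f i + g i) = av f + av g := by
  simp only [av, Finset.sum_add_distrib, add_div]

theorem av_mul (r : ℝ) (f : ι → ℝ) : av (fun i => r * f i) = r * av f := by
  simp only [av, ← Finset.mul_sum, mul_div_assoc]

theorem av_sum {κ : Type*} [Fintype κ] (f : κ → ι → ℝ) :
    ∑ k, av (f k) = av fun i => ∑ k, f k i := by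
  simp only [av, ← Finset.sum_div]
  rw [Finset.sum_comm]

theorem av_cs {ψ : ι → ℝ} (hψ : ∀ i, 0 ≤ ψ i) (f : ι → ℝ) :
    av (fun i => ψ i * f i) ^ 2 ≤ av ψ * av fun i => ψ i * f i ^ 2 := by
  simp only [av]
  rw [div_pow, div_mul_div_comm, ← sq]
  refine div_le_div_of_nonneg_right ?_ (by positivity)
  exact Finset.sum_sq_le_sum_mul_sum_of_sq_le_mul _ (fun i _ => hψ i)
    (fun i _ => mul_nonneg (hψ i) (sq_nonneg _)) fun i _ => le_of_eq (by ring)

end Av

/-- The indicator that the cards of `E` go to the places given by `g`. -/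
noncomputable def ind (E : Finset (Fin (2 * m))) (t : ℕ) (g : Equiv.Perm (Fin (2 * m)))
    (cs : Fin t → Fin m → Bool) : ℝ := if ∀ a ∈ E, iterPerm t cs a = g a then 1 else 0

theorem ind_nonneg (t : ℕ) (g : Equiv.Perm (Fin (2 * m))) (cs : Fin t → Fin m → Bool) :
    0 ≤ ind E t g cs := by
  unfold ind
  split_ifs <;> norm_num

theorem ind_agree {t : ℕ} (g : Equiv.Perm (Fin (2 * m))) {cs cs' : Fin t → Fin m → Bool}
    (h : Agree E t cs cs') : ind E t g cs = ind E t g cs' := by
  unfold ind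
  exact if_congr (forall₂_congr fun a ha => by rw [h.pos a ha]) rfl rfl

theorem ind_insert (t : ℕ) (g : Equiv.Perm (Fin (2 * m))) (cs : Fin t → Fin m → Bool)
    (a : Fin (2 * m)) : ind (insert a E) t g cs =
      ind E t g cs * (Pi.single a 1 : Fin (2 * m) → ℝ) ((iterPerm t cs).symm (g a)) := by
  simp only [ind, Finset.forall_mem_insert, Pi.single_apply, Equiv.symm_apply_eq, eq_comm (a := g a)]
  by_cases h : iterPerm t cs a = g a <;> simp [h]

theorem ind_swap (t : ℕ) (g : Equiv.Perm (Fin (2 * m))) {a x : Fin (2 * m)} (ha : a ∉ E)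
    (hx : x ∉ E) : ind E t (g * Equiv.swap a x) = ind E t g := by
  funext cs
  unfold ind
  refine if_congr (forall₂_congr fun b hb => ?_) rfl rfl
  rw [Equiv.Perm.mul_apply, Equiv.swap_apply_of_ne_of_ne (ne_of_mem_of_not_mem hb ha)
    (ne_of_mem_of_not_mem hb hx)]

theorem step_sq {t : ℕ} {W Y : (Fin t → Fin m → Bool) → ℝ} (hW : Meas E t W) (hY : Meas E t Y)
    (hW0 : ∀ cs, 0 ≤ W cs) {a : Fin (2 * m)} (ha : a ∉ E) {N : ℝ}
    (hN : N = ((2 * m - E.card : ℕ) : ℝ))
    (hYv : ∀ cs, Y cs ^ 2 * (N * ∑ y, VT E (Pi.single a 1) t cs y ^ 2) = 1) :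
    N ^ 2 * ∑ g, av (fun cs => W cs * Y cs * ind (insert a E) t g cs) ^ 2 ≤
      ∑ g, av (fun cs => W cs * ind E t g cs) ^ 2 := by
  have hN0 : 0 ≤ N := hN ▸ Nat.cast_nonneg _
  obtain ⟨H, hH⟩ : ∃ H : Equiv.Perm (Fin (2 * m)) → Fin (2 * m) → ℝ, ∀ g y, H g y =
      av fun cs => W cs * ind E t g cs * (Y cs * VT E (Pi.single a 1) t cs y) := ⟨_, fun _ _ => rfl⟩
  have h1 : ∀ g, av (fun cs => W cs * Y cs * ind (insert a E) t g cs) = H g (g a) := fun g => by
    have := key (E := E) (Pi.single a 1) t (fun cs => W cs * ind E t g cs * Y cs)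
      (fun cs cs' h => by simp only [hW _ _ h, hY _ _ h, ind_agree g h]) (g a)
    rw [hH]
    simp only [av, ind_insert, ← mul_assoc, ← this]
    congr 1
    exact Finset.sum_congr rfl fun cs _ => by ring
  have h2 : ∀ x ∈ Eᶜ, ∑ g, H g (g a) ^ 2 = ∑ g, H g (g x) ^ 2 := fun x hx => by
    rw [← Equiv.sum_comp (Equiv.mulRight (Equiv.swap a x))]
    refine Finset.sum_congr rfl fun g _ => ?_
    simp only [Equiv.coe_mulRight, Equiv.Perm.mul_apply, Equiv.swap_apply_left, hH,
      ind_swap t g ha (Finset.mem_compl.1 hx)]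
  have h3 : ∀ g, N * ∑ y, H g y ^ 2 ≤ av (fun cs => W cs * ind E t g cs) ^ 2 := fun g => by
    have hψ : ∀ cs, 0 ≤ W cs * ind E t g cs := fun cs => mul_nonneg (hW0 cs) (ind_nonneg _ _ _)
    simp only [hH]
    refine (mul_le_mul_of_nonneg_left (Finset.sum_le_sum fun y _ => av_cs hψ _) hN0).trans
      (le_of_eq ?_)
    rw [← Finset.mul_sum, av_sum, mul_left_comm, ← av_mul, sq]
    congr 2
    funext cs
    simp only [mul_pow, ← Finset.mul_sum]
    linear_combination (W cs * ind E t g cs) * hYv cs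
  have h4 : N * ∑ g, H g (g a) ^ 2 ≤ ∑ g, ∑ y, H g y ^ 2 := by
    calc N * ∑ g, H g (g a) ^ 2 = ∑ x ∈ Eᶜ, ∑ g, H g (g x) ^ 2 := by
          rw [← Finset.sum_congr rfl h2, Finset.sum_const, Finset.card_compl, Fintype.card_fin,
            nsmul_eq_mul, hN]
      _ ≤ ∑ x, ∑ g, H g (g x) ^ 2 :=
          Finset.sum_le_sum_of_subset_of_nonneg (Finset.subset_univ _) fun _ _ _ => by positivity
      _ = _ := by
          rw [Finset.sum_comm]
          exact Finset.sum_congr rfl fun g _ => Equiv.sum_comp g fun y => H g y ^ 2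
  simp only [h1]
  calc N ^ 2 * ∑ g, H g (g a) ^ 2 ≤ N * ∑ g, ∑ y, H g y ^ 2 := by
        rw [sq, mul_assoc]
        exact mul_le_mul_of_nonneg_left h4 hN0
    _ ≤ _ := by
        rw [Finset.mul_sum]
        exact Finset.sum_le_sum fun g _ => h3 g

theorem weights {t : ℕ} {A : Finset (Fin (2 * m))} {ε : ℝ} (hε : 0 ≤ ε)
    (hw : ∀ E ⊆ A, ∀ w : Fin (2 * m) → ℝ, (∀ y ∈ E, w y = 0) → ∑ y, w y = 0 →
      av (fun cs : Fin t → Fin m → Bool => ∑ y, VT E w t cs y ^ 2) ≤ ε * ∑ y, w y ^ 2)
    (E : Finset (Fin (2 * m))) (hE : E ⊆ A) :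
    ∃ W R : (Fin t → Fin m → Bool) → ℝ, Meas E t W ∧ (∀ cs, 0 ≤ W cs) ∧ (∀ cs, 0 ≤ R cs) ∧
      (∀ cs, Real.exp (-R cs) ≤ W cs ^ 2) ∧ av R ≤ E.card * (2 * m * ε) ∧
      ∑ g, av (fun cs => W cs * ind E t g cs) ^ 2 ≤
        ((2 * m - E.card).factorial : ℝ) ^ 2 / (2 * m).factorial := by
  induction E using Finset.induction_on with
  | empty =>
    refine ⟨fun _ => 1, fun _ => 0, fun _ _ _ => rfl, by simp, by simp, by simp, by simp [av], ?_⟩
    have : ((2 * m).factorial : ℝ) ≠ 0 := by positivity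
    simp [av, ind, Fintype.card_perm, sq, this]
  | insert a E ha ih =>
    have hE' : E ⊆ A := (Finset.subset_insert _ _).trans hE
    obtain ⟨W, R, hW, hW0, hR0, hWR, hR, hF⟩ := ih hE'
    have hcard : E.card + 1 ≤ 2 * m := by
      rw [← Finset.card_insert_of_notMem ha]
      simpa using Finset.card_le_univ (insert a E)
    obtain ⟨N, hN⟩ : ∃ N : ℝ, N = ((2 * m - E.card : ℕ) : ℝ) := ⟨_, rfl⟩
    have hN0 : 0 < N := hN ▸ Nat.cast_pos.2 (by omega)
    have hN1 : N ≤ 2 * m := by
      rw [hN]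
      exact_mod_cast Nat.sub_le _ _
    obtain ⟨w, hw'⟩ : ∃ w : Fin (2 * m) → ℝ, ∀ x, w x =
        (Pi.single a 1 : Fin (2 * m) → ℝ) x - N⁻¹ * fr E x := ⟨_, fun _ => rfl⟩
    have hw0 : ∀ y ∈ E, w y = 0 := fun y hy => by
      simp [hw', fr, hy, ne_of_mem_of_not_mem hy ha]
    have hws : ∑ y, w y = 0 := by
      simp [hw', ← Finset.mul_sum, sum_fr, ← hN, hN0.ne']
    have hδ : (fun x => w x + N⁻¹ * fr E x) = Pi.single a 1 := funext fun x => by simp [hw']
    have hsp := sq_split hN hN0.ne' hw0 hws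
    rw [hδ] at hsp
    have hw1 : ∑ y, w y ^ 2 ≤ 1 := by
      have := hsp 0 Fin.elim0
      simp only [VT, Pi.single_apply, ite_pow, one_pow, ne_eq, OfNat.ofNat_ne_zero,
        not_false_eq_true, zero_pow, Finset.sum_ite_eq', Finset.mem_univ, if_true] at this
      nlinarith
    obtain ⟨S, hS⟩ : ∃ S : (Fin t → Fin m → Bool) → ℝ, ∀ cs, S cs = N * ∑ y, VT E w t cs y ^ 2 :=
      ⟨_, fun _ => rfl⟩
    have hS0 : ∀ cs, 0 ≤ S cs := fun cs => by rw [hS]; positivity
    have hY : Meas E t fun cs => (√(1 + S cs))⁻¹ := fun cs cs' h => by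
      simp only [hS, VT_agree w h]
    have hY2 : ∀ cs, (√(1 + S cs))⁻¹ ^ 2 = (1 + S cs)⁻¹ := fun cs => by
      rw [inv_pow, Real.sq_sqrt (by linarith [hS0 cs])]
    refine ⟨fun cs => W cs * (√(1 + S cs))⁻¹, fun cs => R cs + S cs, fun cs cs' h => ?_,
      fun cs => mul_nonneg (hW0 cs) (by positivity), fun cs => add_nonneg (hR0 cs) (hS0 cs),
      fun cs => ?_, ?_, ?_⟩
    · have h' := h.mono (Finset.subset_insert a E)
      exact congrArg₂ (· * ·) (hW _ _ h') (hY _ _ h')
    · rw [mul_pow, hY2, neg_add, Real.exp_add, Real.exp_neg (S cs)]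
      refine mul_le_mul (hWR cs) (inv_anti₀ (by linarith [hS0 cs]) ?_) (by positivity)
        (sq_nonneg _)
      linarith [Real.add_one_le_exp (S cs)]
    · rw [av_add, Finset.card_insert_of_notMem ha, funext hS, av_mul]
      have h1 := (hw E hE' w hw0 hws).trans (mul_le_of_le_one_right hε hw1)
      have h2 := mul_le_mul hN1 h1 (av_nonneg fun cs => by positivity) (by positivity)
      push_cast
      linarith
    · have h1 := (step_sq hW hY hW0 ha hN fun cs => by
        rw [hsp, ← hS, hY2, inv_mul_cancel₀ (by linarith [hS0 cs])]).trans hF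
      have h2 : ((2 * m - E.card).factorial : ℝ) = N * (2 * m - (E.card + 1)).factorial := by
        rw [hN, show 2 * m - E.card = 2 * m - (E.card + 1) + 1 by omega, Nat.factorial_succ]
        push_cast
        ring
      rw [h2, mul_pow, mul_div_assoc] at h1
      rw [Finset.card_insert_of_notMem ha]
      exact le_of_mul_le_mul_left h1 (by positivity)

end TupleAux

open TupleAux in
theorem tuple (h : WalkStmt) : TupleStmt := by
  intro d hd B hB
  have hBc : Bᶜ.card = 2 * 2 ^ d - B.card := by simp [Finset.card_compl]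
  have hBle : B.card ≤ 2 * 2 ^ d := by simpa using Finset.card_le_univ B
  obtain ⟨W, R, -, hW0, hR0, hWR, hR, hF⟩ := weights (t := 400 * (d + 1)) (A := Bᶜ)
    (ε := (1 / 8) ^ (d + 1)) (by positivity)
    (fun E hE => h d hd E (by have := Finset.card_le_card hE; omega)) Bᶜ subset_rfl
  classical
  refine ⟨Finset.univ.filter fun cs => R cs ≤ 1 / 2, ?_, ?_⟩
  · refine (av_mono (g := fun cs => 2 * R cs) fun cs => ?_).trans ?_
    · simp only [Finset.mem_filter, Finset.mem_univ, true_and]
      split_ifs with h1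
      · linarith [hR0 cs]
      · linarith [not_le.1 h1]
    · rw [av_mul]
      have h1 : (Bᶜ.card : ℝ) ≤ 2 * 2 ^ d := by
        rw [hBc]
        exact_mod_cast Nat.sub_le _ _
      have h2 := hR.trans (mul_le_mul_of_nonneg_right h1 (by positivity))
      have h3 : (1 / 8 : ℝ) ^ (d + 1) = 1 / (2 * 2 ^ d) ^ 3 := by
        rw [one_div_pow, ← pow_succ', ← pow_mul, mul_comm (d + 1), pow_mul]
        norm_num
      rw [h3] at h2
      push_cast at h2
      refine (mul_le_mul_of_nonneg_left h2 (by norm_num)).trans (le_of_eq ?_)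
      field_simp
  · rw [hBc, Nat.sub_sub_self hBle] at hF
    rw [mul_div_assoc]
    refine le_trans ?_ (mul_le_mul_of_nonneg_left hF (by norm_num))
    rw [Finset.mul_sum]
    refine Finset.sum_le_sum fun g _ => ?_
    have e : ∀ x : ℝ, 2 * x ^ 2 = (√2 * x) ^ 2 := fun x => by
      rw [mul_pow, Real.sq_sqrt (by norm_num)]
    rw [e, ← av_mul]
    refine pow_le_pow_left₀ (av_nonneg fun cs => by split_ifs <;> norm_num) (av_mono fun cs => ?_) 2
    split_ifs with h1
    · have h2 : ind Bᶜ (400 * (d + 1)) g cs = 1 :=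
        if_pos fun a ha => h1.2 a (Finset.mem_compl.1 ha)
      have h3 : R cs ≤ 1 / 2 := (Finset.mem_filter.1 h1.1).2
      have h4 := Real.add_one_le_exp (-R cs)
      have h5 := hWR cs
      rw [h2, mul_one]
      refine le_of_sq_le_sq ?_ (mul_nonneg (Real.sqrt_nonneg _) (hW0 cs))
      rw [← e]
      linarith
    · exact mul_nonneg (Real.sqrt_nonneg _) (mul_nonneg (hW0 cs) (ind_nonneg _ _ _))

end Crest.Agent.R155
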