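import Crest.Agent.R155.RepMain
import Crest.Agent.R155.Tuple

/-! Row 155: from the collision bound to the mixing bound. -/

set_option autoImplicit false

namespace Crest.Agent.R155

open Module Finset TupleAux
open scoped InnerProductSpace

section Abstract

variable {G : Type*} [Group G] [Fintype G] [DecidableEq G] {Ω : Type*} [Fintype Ω] [DecidableEq Ω]

/-- The Markov operator of a random group element. -/
noncomputable def mk (σ : Ω → G) (f : G → ℝ) : G → ℝ := fun g => av fun ω => f (σ ω * g)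

/-- The Markov operator restricted to an event. -/
noncomputable def mkG (σ : Ω → G) (Good : Finset Ω) (f : G → ℝ) : G → ℝ :=
  fun g => av fun ω => if ω ∈ Good then f (σ ω * g) else 0

/-- The law restricted to an event. -/
noncomputable def lawG (σ : Ω → G) (Good : Finset Ω) : G → ℝ :=
  fun g => av fun ω => if ω ∈ Good ∧ σ ω = g then 1 else 0

omit [Group G] [Fintype G] in
theorem lawG_nonneg (σ : Ω → G) (Good : Finset Ω) (g : G) : 0 ≤ lawG σ Good g :=
  av_nonneg fun ω => by split_ifs <;> norm_num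

theorem sum_lawG (σ : Ω → G) (Good : Finset Ω) (f : G → ℝ) (g : G) :
    ∑ x, lawG σ Good x * f (x * g) = mkG σ Good f g := by
  have : ∀ x, lawG σ Good x * f (x * g) =
      av fun ω => f (x * g) * if ω ∈ Good ∧ σ ω = x then 1 else 0 := by
    intro x
    rw [av_mul, mul_comm]
    rfl
  simp only [this]
  rw [av_sum]
  unfold mkG
  congr 1
  funext ω
  by_cases h : ω ∈ Good <;> simp [h]

theorem conv_vec (σ : Ω → G) (Good : Finset Ω) (f : G → ℝ) :
    conv (lawG σ Good) (vec f) = vec (mkG σ Good f) := by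
  ext g
  rw [conv_apply]
  simp only [vec, ← sum_lawG]
  push_cast
  rfl

theorem inner_vec_vec (σ : Ω → G) (Good : Finset Ω) (f : G → ℝ) :
    ⟪vec (lawG σ Good), vec f⟫_ℂ = (mkG σ Good f 1 : ℝ) := by
  rw [inner_vec]
  simp only [vec, ← sum_lawG, mul_one]
  push_cast
  rfl

omit [DecidableEq Ω] in
theorem av_const [Nonempty Ω] (c : ℝ) : av (fun _ : Ω => c) = c := by
  have : (Fintype.card Ω : ℝ) ≠ 0 := by exact_mod_cast Fintype.card_ne_zero
  simp only [av, Finset.sum_const, Finset.card_univ, nsmul_eq_mul]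
  field_simp

omit [DecidableEq Ω] in
theorem abs_av_le {f g : Ω → ℝ} (h : ∀ ω, |f ω| ≤ g ω) : |av f| ≤ av g := by
  rw [abs_le]
  constructor
  · have := av_mono (f := fun ω => (-1) * g ω) (g := f) fun ω => by linarith [(abs_le.mp (h ω)).1]
    rw [av_mul] at this
    linarith
  · exact av_mono fun ω => (abs_le.mp (h ω)).2

omit [Fintype G] [DecidableEq G] in
theorem mk_step [Nonempty Ω] (σ : Ω → G) (Good : Finset Ω) {p C ε : ℝ}
    (hp : av (fun ω => if ω ∈ Good then (0 : ℝ) else 1) ≤ p) {f f' : G → ℝ}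
    (hf : ∀ g, |f g| ≤ C) (hε : ∀ g, |f g - f' g| ≤ ε) :
    (∀ g, |mk σ f g| ≤ C) ∧ ∀ g, |mk σ f g - mkG σ Good f' g| ≤ ε + C * p := by
  have hC : 0 ≤ C := (abs_nonneg _).trans (hf 1)
  have hε0 : 0 ≤ ε := (abs_nonneg _).trans (hε 1)
  constructor
  · intro g
    exact (abs_av_le fun ω => hf _).trans (av_const C).le
  · intro g
    have e : mk σ f g - mkG σ Good f' g =
        av fun ω => f (σ ω * g) + (-1) * if ω ∈ Good then f' (σ ω * g) else 0 := by
      rw [av_add, av_mul]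
      unfold mk mkG
      ring
    rw [e]
    refine (abs_av_le (g := fun ω => ε + C * if ω ∈ Good then (0 : ℝ) else 1) ?_).trans ?_
    · intro ω
      by_cases h : ω ∈ Good
      · simp only [h, if_true]
        have := hε (σ ω * g)
        rw [sub_eq_add_neg] at this
        simpa using this
      · simp only [h, if_false]
        have := hf (σ ω * g)
        simp only [mul_zero, add_zero, mul_one]
        linarith
    · rw [av_add, av_const, av_mul]
      have := mul_le_mul_of_nonneg_left hp hC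
      linarith

theorem mix_abstract [Nonempty Ω] (σ : Ω → G) (Good : Finset Ω) {p : ℝ}
    (hp : av (fun ω => if ω ∈ Good then (0 : ℝ) else 1) ≤ p)
    (hβ : ∀ k, ∀ φ ∈ SmallG G (2 ^ (32 * (k + 1))), ‖⟪vec (lawG σ Good), φ⟫_ℂ‖ ^ 2 ≤
      (2 ^ (62 + 14 * k) : ℝ) / Fintype.card G * ‖φ‖ ^ 2)
    (k₀ : ℕ) {f : G → ℝ} (hf : ∀ g, |f g| ≤ 3) (hφ : vec f ∈ (SmallG G (2 ^ (32 * k₀)))ᗮ) :
    |(mk σ)^[4] f 1| ≤ 12 * p + 6 * 2 ^ 124 * (1 / 2 ^ 20) ^ k₀ := by
  have hG : (0 : ℝ) < Fintype.card G := by exact_mod_cast Fintype.card_pos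
  have h0 := rep_main _ hβ k₀ hφ
  rw [conv_vec, conv_vec, conv_vec, inner_vec_vec, Complex.norm_real, Real.norm_eq_abs] at h0
  have hn : ‖vec f‖ ≤ 3 * √(Fintype.card G) := by
    apply le_of_sq_le_sq _ (by positivity) |> fun h => h
    rw [EuclideanSpace.norm_sq_eq, mul_pow, Real.sq_sqrt hG.le]
    refine (Finset.sum_le_sum (g := fun _ => (3 : ℝ) ^ 2) fun g _ => ?_).trans ?_
    · simp only [vec, Complex.norm_real, Real.norm_eq_abs]
      exact pow_le_pow_left₀ (abs_nonneg _) (hf g) 2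
    · simp [mul_comm]
  have hs : 0 < √(Fintype.card G : ℝ) := Real.sqrt_pos.mpr hG
  have h1 : |mkG σ Good (mkG σ Good (mkG σ Good (mkG σ Good f))) 1| ≤
      6 * 2 ^ 124 * (1 / 2 ^ 20) ^ k₀ := by
    refine le_of_mul_le_mul_left (h0.trans ?_) hs
    refine (mul_le_mul_of_nonneg_left hn (by positivity)).trans (le_of_eq ?_)
    ring
  obtain ⟨a1, b1⟩ := mk_step σ Good hp (f' := f) (ε := 0) hf (by simp)
  obtain ⟨a2, b2⟩ := mk_step σ Good hp a1 b1
  obtain ⟨a3, b3⟩ := mk_step σ Good hp a2 b2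
  obtain ⟨-, b4⟩ := mk_step σ Good hp a3 b3
  have b5 := b4 1
  change |mk σ (mk σ (mk σ (mk σ f))) 1| ≤ _
  have := abs_sub_abs_le_abs_sub (mk σ (mk σ (mk σ (mk σ f))) 1)
    (mkG σ Good (mkG σ Good (mkG σ Good (mkG σ Good f))) 1)
  linarith

end Abstract

section Perm

variable {α : Type} [Fintype α] [DecidableEq α] {Ω : Type*} [Fintype Ω] [DecidableEq Ω]

theorem coset_le (σ : Ω → Equiv.Perm α) (Good Good' : Finset Ω) (hG : Good ⊆ Good')
    (B : Finset α) (g : Equiv.Perm α) :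
    ∑ h : Equiv.Perm {x // x ∈ B}, lawG σ Good (g * Equiv.Perm.ofSubtype h) ≤
      av fun ω => if ω ∈ Good' ∧ ∀ a ∉ B, σ ω a = g a then (1 : ℝ) else 0 := by
  unfold lawG
  rw [av_sum]
  refine av_mono fun ω => ?_
  by_cases hex : ∃ h : Equiv.Perm {x // x ∈ B}, ω ∈ Good ∧ σ ω = g * Equiv.Perm.ofSubtype h
  · obtain ⟨h, h1, h2⟩ := hex
    rw [if_pos, Finset.sum_eq_single h, if_pos ⟨h1, h2⟩]
    · intro h' _ hne
      rw [if_neg]
      rintro ⟨-, h3⟩
      rw [h2] at h3
      exact hne (Equiv.Perm.ofSubtype_injective (mul_left_cancel h3)).symm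
    · simp
    · refine ⟨hG h1, fun a ha => ?_⟩
      rw [h2, Equiv.Perm.mul_apply, Equiv.Perm.ofSubtype_apply_of_not_mem h ha]
  · rw [Finset.sum_eq_zero fun h _ => if_neg fun hh => hex ⟨h, hh⟩]
    split_ifs <;> norm_num

theorem pair_perm (hP : ProdStmt) (hS : SymDimStmt) (σ : Ω → Equiv.Perm α)
    (B : Fin 32 → Finset α) (hB : ∀ i j, i ≠ j → Disjoint (B i) (B j)) (Good : Finset Ω)
    (Gd : Fin 32 → Finset Ω) (hG : ∀ j, Good ⊆ Gd j)
    (hF : ∀ j, ∑ g : Equiv.Perm α,
      av (fun ω => if ω ∈ Gd j ∧ ∀ a ∉ B j, σ ω a = g a then (1 : ℝ) else 0) ^ 2 ≤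
        2 * ((B j).card.factorial : ℝ) ^ 2 / ((Fintype.card α).factorial : ℝ)) (k : ℕ) :
    ∀ φ ∈ SmallG (Equiv.Perm α) (2 ^ (32 * (k + 1))), ‖⟪vec (lawG σ Good), φ⟫_ℂ‖ ^ 2 ≤
      (2 ^ (62 + 14 * k) : ℝ) / Fintype.card (Equiv.Perm α) * ‖φ‖ ^ 2 := by
  intro φ hφ
  have hGc : (0 : ℝ) < Fintype.card (Equiv.Perm α) := by exact_mod_cast Fintype.card_pos
  have := pair_blocks hP (r := 32) (D := 2 ^ (k + 1)) (by norm_num)
    (fun j => Set.range fun h : Equiv.Perm {x // x ∈ B j} => rt (Equiv.Perm.ofSubtype h))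
    (Set.range rt) (by rintro j _ ⟨h, rfl⟩; exact ⟨_, rfl⟩)
    (by
      rintro i j hij _ ⟨h, rfl⟩ _ ⟨h', rfl⟩ v
      rw [← rt_mul, ← rt_mul]
      have : Equiv.Perm.Disjoint (Equiv.Perm.ofSubtype h) (Equiv.Perm.ofSubtype h') := by
        intro x
        by_cases hx : x ∈ B i
        · right
          exact Equiv.Perm.ofSubtype_apply_of_not_mem h' (Finset.disjoint_left.mp (hB i j hij) hx)
        · left
          exact Equiv.Perm.ofSubtype_apply_of_not_mem h hx
      rw [this.commute.eq])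
    (vec (lawG σ Good)) (c := 2 * (2 ^ 42 * (2 ^ (k + 1)) ^ 14) / Fintype.card (Equiv.Perm α))
    (by positivity)
    (by
      intro j ψ hψ
      have h1 := pair_coset (Equiv.Perm.ofSubtype (p := fun x => x ∈ B j)) (lawG σ Good)
        (lawG_nonneg σ Good) (by
          refine le_trans (Finset.sum_le_sum fun g _ => pow_le_pow_left₀
            (Finset.sum_nonneg fun h _ => lawG_nonneg σ Good _)
            (coset_le σ Good (Gd j) (hG j) (B j) g) 2) ((hF j).trans (le_of_eq ?_))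
          rw [Fintype.card_perm, Fintype.card_perm, Fintype.card_coe]) (2 ^ (k + 1)) ψ hψ
      refine h1.trans (mul_le_mul_of_nonneg_right ?_ (by positivity))
      refine div_le_div_of_nonneg_right (mul_le_mul_of_nonneg_left ?_ (by norm_num)) hGc.le
      exact_mod_cast hS _ (2 ^ (k + 1)))
    φ (by rw [← pow_mul, mul_comm (k + 1)]; exact hφ)
  refine this.trans (le_of_eq ?_)
  congr 1
  rw [← mul_div_assoc]
  congr 1
  rw [← pow_mul, show (k + 1) * 14 = 14 + 14 * k by ring, pow_add, pow_add]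
  norm_num
  ring

end Perm

end Crest.Agent.R155
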