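import Crest.Agent.R155.Defs

/-! Row 155 (Thorp shuffle): invariant subspaces of small dimension, basic facts and the
statements of the representation-theoretic parts. -/

set_option autoImplicit false

namespace Crest.Agent.R155

open Module Finset
open scoped InnerProductSpace

section General

variable {V : Type*} [NormedAddCommGroup V] [InnerProductSpace ℂ V]

/-- `W` is invariant under the unitaries in `S`. -/
def Inv (S : Set (V ≃ₗᵢ[ℂ] V)) (W : Submodule ℂ V) : Prop := ∀ u ∈ S, ∀ v ∈ W, u v ∈ W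

/-- The sum of all invariant subspaces of dimension at most `D`. -/
def Small (S : Set (V ≃ₗᵢ[ℂ] V)) (D : ℕ) : Submodule ℂ V :=
  sSup {W | Inv S W ∧ finrank ℂ W ≤ D}

theorem Inv.inf {S : Set (V ≃ₗᵢ[ℂ] V)} {W W' : Submodule ℂ V} (h : Inv S W) (h' : Inv S W') :
    Inv S (W ⊓ W') := fun u hu v hv => ⟨h u hu v hv.1, h' u hu v hv.2⟩

theorem Inv.sup {S : Set (V ≃ₗᵢ[ℂ] V)} {W W' : Submodule ℂ V} (h : Inv S W) (h' : Inv S W') :
    Inv S (W ⊔ W') := by
  intro u hu v hv
  obtain ⟨a, ha, b, hb, rfl⟩ := Submodule.mem_sup.mp hv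
  rw [map_add]
  exact Submodule.add_mem_sup (h u hu a ha) (h' u hu b hb)

theorem Inv.mono {S S' : Set (V ≃ₗᵢ[ℂ] V)} {W : Submodule ℂ V} (h : Inv S W) (hS : S' ⊆ S) :
    Inv S' W := fun u hu => h u (hS hu)

theorem inv_top (S : Set (V ≃ₗᵢ[ℂ] V)) : Inv S ⊤ := fun _ _ _ _ => trivial

theorem inv_bot (S : Set (V ≃ₗᵢ[ℂ] V)) : Inv S ⊥ := by
  intro u _ v hv
  rw [Submodule.mem_bot] at hv ⊢
  rw [hv, map_zero]

theorem inv_span {S : Set (V ≃ₗᵢ[ℂ] V)} {s : Set V}
    (h : ∀ u ∈ S, ∀ v ∈ s, u v ∈ Submodule.span ℂ s) : Inv S (Submodule.span ℂ s) := by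
  intro u hu v hv
  induction hv using Submodule.span_induction with
  | mem x hx => exact h u hu x hx
  | zero => rw [map_zero]; exact Submodule.zero_mem _
  | add x y _ _ hx hy => rw [map_add]; exact Submodule.add_mem _ hx hy
  | smul a x _ hx => rw [map_smul]; exact Submodule.smul_mem _ _ hx

theorem Inv.symm [FiniteDimensional ℂ V] {S : Set (V ≃ₗᵢ[ℂ] V)} {W : Submodule ℂ V}
    (h : Inv S W) {u : V ≃ₗᵢ[ℂ] V} (hu : u ∈ S) {v : V} (hv : v ∈ W) : u.symm v ∈ W := by
  let f : W →ₗ[ℂ] W := (u.toLinearEquiv.toLinearMap).restrict (fun x hx => h u hu x hx)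
  have hf : Function.Injective f := by
    intro x y hxy
    apply Subtype.ext
    apply u.injective
    exact congrArg Subtype.val hxy
  obtain ⟨x, hx⟩ := (LinearMap.injective_iff_surjective.mp hf) ⟨v, hv⟩
  have : u x = v := congrArg Subtype.val hx
  rw [← this, u.symm_apply_apply]
  exact x.2

theorem Inv.orthogonal [FiniteDimensional ℂ V] {S : Set (V ≃ₗᵢ[ℂ] V)} {W : Submodule ℂ V}
    (h : Inv S W) : Inv S Wᗮ := by
  intro u hu v hv
  rw [Submodule.mem_orthogonal] at hv ⊢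
  intro w hw
  have := hv _ (h.symm hu hw)
  rw [← this, ← u.inner_map_map (u.symm w) v, u.apply_symm_apply]

/-- The orthogonal projection on an invariant subspace commutes with the unitaries. -/
theorem Inv.proj_comm [FiniteDimensional ℂ V] {S : Set (V ≃ₗᵢ[ℂ] V)} {W : Submodule ℂ V}
    (h : Inv S W) {u : V ≃ₗᵢ[ℂ] V} (hu : u ∈ S) (v : V) :
    W.starProjection (u v) = u (W.starProjection v) := by
  apply Submodule.eq_starProjection_of_mem_orthogonal
  · exact h u hu _ (W.starProjection_apply_mem v)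
  · rw [← map_sub]
    exact h.orthogonal u hu _ (Submodule.sub_starProjection_mem_orthogonal v)

theorem le_small {S : Set (V ≃ₗᵢ[ℂ] V)} {D : ℕ} {W : Submodule ℂ V} (h : Inv S W)
    (hD : finrank ℂ W ≤ D) : W ≤ Small S D := le_sSup ⟨h, hD⟩

theorem small_le {S : Set (V ≃ₗᵢ[ℂ] V)} {D : ℕ} {X : Submodule ℂ V}
    (h : ∀ W, Inv S W → finrank ℂ W ≤ D → W ≤ X) : Small S D ≤ X :=
  sSup_le fun W hW => h W hW.1 hW.2

theorem small_mono (S : Set (V ≃ₗᵢ[ℂ] V)) {D D' : ℕ} (h : D ≤ D') : Small S D ≤ Small S D' :=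
  small_le fun _ hW hD => le_small hW (hD.trans h)

/-- An intertwiner maps invariant subspaces to invariant subspaces. -/
theorem Inv.map {V' : Type*} [NormedAddCommGroup V'] [InnerProductSpace ℂ V']
    {S : Set (V ≃ₗᵢ[ℂ] V)} {S' : Set (V' ≃ₗᵢ[ℂ] V')} (f : V →ₗ[ℂ] V')
    (hf : ∀ u' ∈ S', ∃ u ∈ S, ∀ v, f (u v) = u' (f v)) {W : Submodule ℂ V} (h : Inv S W) :
    Inv S' (W.map f) := by
  rintro u' hu' _ ⟨v, hv, rfl⟩
  obtain ⟨u, hu, e⟩ := hf u' hu'
  exact ⟨u v, h u hu v hv, e v⟩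

/-- An intertwiner maps `Small` to `Small`. -/
theorem small_map [FiniteDimensional ℂ V] {V' : Type*} [NormedAddCommGroup V']
    [InnerProductSpace ℂ V'] {S : Set (V ≃ₗᵢ[ℂ] V)} {S' : Set (V' ≃ₗᵢ[ℂ] V')} (f : V →ₗ[ℂ] V')
    (hf : ∀ u' ∈ S', ∃ u ∈ S, ∀ v, f (u v) = u' (f v)) {D : ℕ} {v : V} (hv : v ∈ Small S D) :
    f v ∈ Small S' D := by
  have : Small S D ≤ (Small S' D).comap f := by
    apply small_le
    intro W hW hD
    rw [← Submodule.map_le_iff_le_comap]
    exact le_small (hW.map f hf) ((Submodule.finrank_map_le f W).trans hD)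
  exact this hv

/-- An operator that commutes with `S` preserves `Small S D`. -/
theorem small_map_self [FiniteDimensional ℂ V] {S : Set (V ≃ₗᵢ[ℂ] V)} (f : V →ₗ[ℂ] V)
    (hf : ∀ u ∈ S, ∀ v, f (u v) = u (f v)) {D : ℕ} {v : V} (hv : v ∈ Small S D) :
    f v ∈ Small S D :=
  small_map f (fun u hu => ⟨u, hu, hf u hu⟩) hv

theorem inv_small (S : Set (V ≃ₗᵢ[ℂ] V)) (D : ℕ) : Inv S (Small S D) := by
  intro u hu v hv
  have : Small S D ≤ (Small S D).comap u.toLinearEquiv.toLinearMap := by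
    apply small_le
    intro W hW hD x hx
    exact le_small hW hD (hW u hu x hx)
  exact this hv

/-- `Small S D` is invariant under unitaries that commute with `S`. -/
theorem inv_small_of_comm [FiniteDimensional ℂ V] {S S' : Set (V ≃ₗᵢ[ℂ] V)}
    (h : ∀ u ∈ S, ∀ u' ∈ S', ∀ v, u (u' v) = u' (u v)) (D : ℕ) : Inv S' (Small S D) :=
  fun u' hu' _ hv => small_map_self u'.toLinearEquiv.toLinearMap
    (fun u hu v => (h u hu u' hu' v).symm) hv

/-- To put an invariant `W` inside an invariant `L`, it is enough to meet `L` in every non-zero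
invariant subspace whose dimension is at most that of `W`. -/
theorem le_of_forall_meet [FiniteDimensional ℂ V] {S : Set (V ≃ₗᵢ[ℂ] V)} {W L : Submodule ℂ V}
    (hW : Inv S W) (hL : Inv S L)
    (h : ∀ X, Inv S X → X ≠ ⊥ → finrank ℂ X ≤ finrank ℂ W → ∃ v ∈ X, v ≠ 0 ∧ v ∈ L) : W ≤ L := by
  let P : V →ₗ[ℂ] V := Lᗮ.starProjection.toLinearMap
  have hX : Inv S (W.map P) := hW.map P fun u hu => ⟨u, hu, hL.orthogonal.proj_comm hu⟩
  by_cases h0 : W.map P = ⊥
  · intro w hw
    have : P w = 0 := by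
      have : P w ∈ W.map P := ⟨w, hw, rfl⟩
      rwa [h0, Submodule.mem_bot] at this
    have h2 : w ∈ Lᗮᗮ := (Submodule.starProjection_apply_eq_zero_iff _).mp this
    rwa [Submodule.orthogonal_orthogonal] at h2
  · obtain ⟨v, ⟨w, -, rfl⟩, hv0, hvL⟩ := h _ hX h0 (Submodule.finrank_map_le P W)
    exfalso
    apply hv0
    have : P w ∈ L ⊓ Lᗮ := ⟨hvL, Lᗮ.starProjection_apply_mem w⟩
    rwa [Submodule.inf_orthogonal_eq_bot, Submodule.mem_bot] at this

end General

section Group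

variable {G : Type*} [Group G] [Fintype G]

/-- Functions on a finite group. -/
abbrev L2 (G : Type*) := EuclideanSpace ℂ G

/-- Right translation. -/
noncomputable def rt (x : G) : L2 G ≃ₗᵢ[ℂ] L2 G :=
  LinearIsometryEquiv.piLpCongrLeft 2 ℂ ℂ (Equiv.mulRight x⁻¹)

/-- Left translation. -/
noncomputable def lt (x : G) : L2 G ≃ₗᵢ[ℂ] L2 G :=
  LinearIsometryEquiv.piLpCongrLeft 2 ℂ ℂ (Equiv.mulLeft x⁻¹)

@[simp] theorem rt_apply (x : G) (φ : L2 G) (g : G) : rt x φ g = φ (g * x) := by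
  simp [rt, LinearIsometryEquiv.piLpCongrLeft_apply, Equiv.piCongrLeft']

@[simp] theorem lt_apply (x : G) (φ : L2 G) (g : G) : lt x φ g = φ (x * g) := by
  simp [lt, LinearIsometryEquiv.piLpCongrLeft_apply, Equiv.piCongrLeft']

theorem rt_mul (x y : G) (φ : L2 G) : rt (x * y) φ = rt x (rt y φ) := by
  ext g; simp [mul_assoc]

theorem rt_one (φ : L2 G) : rt (1 : G) φ = φ := by
  ext g; simp

theorem lt_rt (x y : G) (φ : L2 G) : lt x (rt y φ) = rt y (lt x φ) := by
  ext g; simp [mul_assoc]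

/-- The right regular representation. -/
noncomputable def reg (G : Type*) [Group G] [Fintype G] : G →* (L2 G ≃ₗᵢ[ℂ] L2 G) where
  toFun := rt
  map_one' := by ext φ g; simp
  map_mul' x y := by ext φ g; simp [mul_assoc]

/-- The sum of the right-invariant spaces of functions of dimension at most `D`. -/
noncomputable def SmallG (G : Type*) [Group G] [Fintype G] (D : ℕ) : Submodule ℂ (L2 G) :=
  Small (Set.range (rt (G := G))) D

/-- The constant function. -/
def oneV (G : Type*) : L2 G := WithLp.toLp 2 fun _ => 1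

/-- The sign function. -/
def sgnV (α : Type*) [Fintype α] [DecidableEq α] : L2 (Equiv.Perm α) :=
  WithLp.toLp 2 fun g => ((Equiv.Perm.sign g : ℤ) : ℂ)

end Group

/-- Commuting families of unitaries without small invariant subspaces need a large space. -/
def ProdStmt : Prop :=
  ∀ (V : Type) [NormedAddCommGroup V] [InnerProductSpace ℂ V] [FiniteDimensional ℂ V]
    (r D : ℕ) (S : Fin r → Set (V ≃ₗᵢ[ℂ] V)) (X : Submodule ℂ V),
    (∀ i j, i ≠ j → ∀ u ∈ S i, ∀ u' ∈ S j, ∀ v, u (u' v) = u' (u v)) →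
    X ≠ ⊥ → (∀ j, Inv (S j) X) →
    (∀ j, ∀ Y ≤ X, Y ≠ ⊥ → Inv (S j) Y → D < finrank ℂ Y) →
    (D + 1) ^ r ≤ finrank ℂ X

/-- The dimension of the small part of the regular representation. -/
def DimStmt : Prop :=
  ∀ (G : Type) [Group G] [Fintype G] (D : ℕ),
    finrank ℂ (SmallG G D) ≤ D ^ 2 * Nat.card (ConjClasses G)

/-- A representation of a symmetric group in which the largest set with a fixed vector has `a`
points is large. -/
def WeightStmt : Prop :=
  ∀ (V : Type) [NormedAddCommGroup V] [InnerProductSpace ℂ V] [FiniteDimensional ℂ V]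
    (α : Type) [Fintype α] [DecidableEq α] (ρ : Equiv.Perm α →* (V ≃ₗᵢ[ℂ] V))
    (X : Submodule ℂ V) (a k : ℕ), Inv (Set.range ρ) X → 4 * k ≤ a → a + k ≤ Fintype.card α →
    (∃ A : Finset α, A.card = a ∧ ∃ v ∈ X, v ≠ 0 ∧ ∀ x ∈ A, ∀ y ∈ A, ρ (Equiv.swap x y) v = v) →
    (∀ A : Finset α, A.card = a + 1 → ∀ v ∈ X,
      (∀ x ∈ A, ∀ y ∈ A, ρ (Equiv.swap x y) v = v) → v = 0) →
    ((a + k) / 2).choose k ≤ finrank ℂ X

/-- Polynomial growth of the small part of the regular representation of a symmetric group. -/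
def SymDimStmt : Prop :=
  ∀ (α : Type) [Fintype α] [DecidableEq α] (D : ℕ),
    finrank ℂ (SmallG (Equiv.Perm α) D) ≤ 2 ^ 42 * D ^ 14

/-- The very small part is spanned by the constants and the sign. -/
def SymLowStmt : Prop :=
  ∀ (α : Type) [Fintype α] [DecidableEq α] (D : ℕ), 36 ≤ Fintype.card α →
    D ^ 4 < Fintype.card α → SmallG (Equiv.Perm α) D ≤ Submodule.span ℂ {oneV _, sgnV α}

end Crest.Agent.R155
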