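import Crest.Agent.R155.Gowers

/-! Row 155: the dyadic sum. -/

set_option autoImplicit false

namespace Crest.Agent.R155

open Module Finset
open scoped InnerProductSpace

variable {G : Type*} [Group G] [Fintype G]

theorem piece_bound (ν : G → ℝ) (k : ℕ)
    (hβ : ∀ φ ∈ SmallG G (2 ^ (32 * (k + 1))), ‖⟪vec ν, φ⟫_ℂ‖ ^ 2 ≤
      (2 ^ (62 + 14 * k) : ℝ) / Fintype.card G * ‖φ‖ ^ 2)
    {φ : L2 G} (hφ : φ ∈ Piece G (2 ^ (32 * k)) (2 ^ (32 * (k + 1)))) :
    √(Fintype.card G) * ‖⟪vec ν, conv ν (conv ν (conv ν φ))⟫_ℂ‖ ≤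
      2 ^ 124 * (1 / 2 ^ 20) ^ k * ‖φ‖ := by
  have hG : (0 : ℝ) < Fintype.card G := by exact_mod_cast Fintype.card_pos
  have h1 := piece_map _ (conv_rt ν) hφ
  have h2 := piece_map _ (conv_rt ν) h1
  have h3 := piece_map _ (conv_rt ν) h2
  set β : ℝ := 2 ^ (62 + 14 * k) with hβdef
  set D : ℝ := 2 ^ (32 * k) with hD
  have hβ0 : 0 < β := by positivity
  have hD0 : 0 < D := by positivity
  have g : ∀ ψ ∈ Piece G (2 ^ (32 * k)) (2 ^ (32 * (k + 1))),
      ‖conv ν ψ‖ ^ 2 ≤ β / D * ‖ψ‖ ^ 2 := by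
    intro ψ hψ
    have := gowers ν hβ0.le hβ hψ
    push_cast at this
    rw [div_mul_eq_mul_div, le_div_iff₀ hD0]
    nlinarith [sq_nonneg ‖conv ν ψ‖]
  have g0 := hβ _ h3.1
  have g1 := g _ hφ
  have g2 := g _ h1
  have g3 := g _ h2
  have hq : 0 ≤ β / D := by positivity
  have g4 : ‖conv ν (conv ν (conv ν φ))‖ ^ 2 ≤ (β / D) ^ 3 * ‖φ‖ ^ 2 := by
    calc _ ≤ β / D * (β / D * (β / D * ‖φ‖ ^ 2)) :=
          g3.trans (mul_le_mul_of_nonneg_left (g2.trans (mul_le_mul_of_nonneg_left g1 hq)) hq)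
      _ = _ := by ring
  apply le_of_sq_le_sq _ (by positivity) |> fun h => h
  rw [mul_pow, Real.sq_sqrt hG.le]
  have e : (2 ^ 124 * (1 / 2 ^ 20 : ℝ) ^ k) ^ 2 = β * (β / D) ^ 3 := by
    rw [hβdef, hD]
    have : (2 : ℝ) ^ (32 * k) = (2 ^ k) ^ 32 := by rw [← pow_mul, mul_comm]
    have h' : (2 : ℝ) ^ (62 + 14 * k) = 2 ^ 62 * (2 ^ k) ^ 14 := by
      rw [pow_add, ← pow_mul, mul_comm k]
    have h'' : (1 / 2 ^ 20 : ℝ) ^ k = 1 / (2 ^ k) ^ 20 := by
      rw [div_pow, one_pow, ← pow_mul, ← pow_mul, mul_comm]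
    rw [this, h', h'']
    field_simp
  calc (Fintype.card G : ℝ) * ‖⟪vec ν, conv ν (conv ν (conv ν φ))⟫_ℂ‖ ^ 2
      ≤ Fintype.card G * (β / Fintype.card G * ((β / D) ^ 3 * ‖φ‖ ^ 2)) := by
        refine mul_le_mul_of_nonneg_left (g0.trans ?_) hG.le
        exact mul_le_mul_of_nonneg_left g4 (by positivity)
    _ = β * (β / D) ^ 3 * ‖φ‖ ^ 2 := by field_simp
    _ = _ := by rw [← e]; ring

theorem telescope {V : Type*} [NormedAddCommGroup V] [InnerProductSpace ℂ V]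
    [FiniteDimensional ℂ V] (W : ℕ → Submodule ℂ V) (hW : ∀ k, W k ≤ W (k + 1))
    (Λ : V →ₗ[ℂ] ℂ) {N c a : ℝ} (hN : 0 ≤ N) (hc : 0 ≤ c) (ha : 0 ≤ a) (ha' : a ≤ 1 / 2)
    (hb : ∀ k, ∀ ψ ∈ W (k + 1) ⊓ (W k)ᗮ, N * ‖Λ ψ‖ ≤ c * a ^ k * ‖ψ‖)
    (k₀ K : ℕ) (hK : W (k₀ + K) = ⊤) {φ : V} (hφ : φ ∈ (W k₀)ᗮ) :
    N * ‖Λ φ‖ ≤ 2 * c * a ^ k₀ * ‖φ‖ := by
  have key : ∀ j, N * ‖Λ ((W (k₀ + j)).starProjection φ)‖ ≤
      2 * c * (a ^ k₀ - a ^ (k₀ + j)) * ‖φ‖ := by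
    intro j
    induction j with
    | zero =>
      have : (W (k₀ + 0)).starProjection φ = 0 :=
        (Submodule.starProjection_apply_eq_zero_iff _).mpr hφ
      rw [this]
      simp
    | succ j ih =>
      rw [← add_assoc]
      generalize k₀ + j = k at ih ⊢
      set p := (W k).starProjection φ with hp
      set q := (W (k + 1)).starProjection φ with hq
      have e : q - p = (W (k + 1)).starProjection (φ - p) := by
        rw [map_sub, Submodule.starProjection_eq_self_iff.mpr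
          (hW k (Submodule.starProjection_apply_mem _ _))]
      have hmem : q - p ∈ W (k + 1) ⊓ (W k)ᗮ := by
        refine ⟨by rw [e]; exact Submodule.starProjection_apply_mem _ _, ?_⟩
        have e2 : q - p = (φ - p) - (φ - q) := by abel
        rw [e2]
        exact Submodule.sub_mem _ (Submodule.sub_starProjection_mem_orthogonal φ)
          (Submodule.orthogonal_le (hW k) (Submodule.sub_starProjection_mem_orthogonal φ))
      have hn : ‖q - p‖ ≤ ‖φ‖ := by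
        rw [e]
        refine (Submodule.norm_starProjection_apply_le _ _).trans ?_
        rw [hp, ← Submodule.starProjection_orthogonal_val]
        exact Submodule.norm_starProjection_apply_le _ _
      have hb := hb k _ hmem
      have e3 : q = p + (q - p) := by abel
      have h4 := norm_add_le (Λ p) (Λ (q - p))
      rw [← map_add, ← e3] at h4
      have h5 := mul_le_mul_of_nonneg_left h4 hN
      have h6 : c * a ^ k * ‖q - p‖ ≤ c * a ^ k * ‖φ‖ :=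
        mul_le_mul_of_nonneg_left hn (by positivity)
      have h8 : 0 ≤ c * a ^ k * ‖φ‖ := by positivity
      have h9 := mul_le_mul_of_nonneg_left ha' h8
      rw [pow_succ]
      nlinarith
  have hP : (W (k₀ + K)).starProjection φ = φ :=
    Submodule.starProjection_eq_self_iff.mpr (by rw [hK]; trivial)
  have := key K
  rw [hP] at this
  refine this.trans (mul_le_mul_of_nonneg_right ?_ (norm_nonneg _))
  have : (0 : ℝ) ≤ a ^ (k₀ + K) := by positivity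
  nlinarith

theorem rep_main (ν : G → ℝ)
    (hβ : ∀ k, ∀ φ ∈ SmallG G (2 ^ (32 * (k + 1))), ‖⟪vec ν, φ⟫_ℂ‖ ^ 2 ≤
      (2 ^ (62 + 14 * k) : ℝ) / Fintype.card G * ‖φ‖ ^ 2)
    (k₀ : ℕ) {φ : L2 G} (hφ : φ ∈ (SmallG G (2 ^ (32 * k₀)))ᗮ) :
    √(Fintype.card G) * ‖⟪vec ν, conv ν (conv ν (conv ν φ))⟫_ℂ‖ ≤
      2 * 2 ^ 124 * (1 / 2 ^ 20) ^ k₀ * ‖φ‖ := by
  have htop : SmallG G (2 ^ (32 * (k₀ + Fintype.card G))) = ⊤ := by
    rw [eq_top_iff]
    refine le_small (inv_top _) ?_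
    rw [finrank_top, finrank_euclideanSpace]
    exact (Nat.lt_two_pow_self.le).trans (Nat.pow_le_pow_right (by norm_num) (by omega))
  exact telescope (fun k => SmallG G (2 ^ (32 * k)))
    (fun k => small_mono _ (Nat.pow_le_pow_right (by norm_num) (by omega)))
    ((innerₛₗ ℂ (vec ν)) ∘ₗ conv ν ∘ₗ conv ν ∘ₗ conv ν) (Real.sqrt_nonneg _) (by positivity)
    (by positivity) (by norm_num) (fun k ψ hψ => piece_bound ν k (hβ k) hψ) k₀ _ htop hφ

end Crest.Agent.R155
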