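import Crest.Agent.R155.WalkB

/-! Row 155, the annealed one-card estimate. -/

set_option autoImplicit false

namespace Crest.Agent.R155.Walk

open Crest.ProbabilityR.Shuffle Finset

variable {m d : ℕ}

/-- The imbalance of the occupied positions between the two parities. -/
noncomputable def dev (s : St m) : ℝ :=
  1 / (2 * m) * ∑ x : Fin (2 * m), (if x.val % 2 = 0 then 1 else -1) * occ s x

theorem block (hm : m = 2 ^ d) {s : St m} (hs : Ok s) :
    PP^[d + 1] bb s ≤ 253 / 256 * PP^[d] bb s + 16 * (dev s ^ 2 * bb s) := by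
  have hm0 : (0 : ℝ) < m := by
    rw [hm]
    positivity
  set α0 : ℝ := 1 / m * ∑ x : Fin (2 * m), if x.val % 2 = 0 then (s x).2 else 0 with hα0
  set α1 : ℝ := 1 / m * ∑ x : Fin (2 * m), if x.val % 2 = 0 then 0 else (s x).2 with hα1
  set ρ0 : ℝ := 1 / m * ∑ x : Fin (2 * m), if x.val % 2 = 0 then occ s x else 0 with hρ0
  set ρ1 : ℝ := 1 / m * ∑ x : Fin (2 * m), if x.val % 2 = 0 then 0 else occ s x with hρ1
  have hα : α0 + α1 = 0 := by
    rw [hα0, hα1, ← mul_add, ← Finset.sum_add_distrib]
    have : ∀ x : Fin (2 * m), ((if x.val % 2 = 0 then (s x).2 else 0) +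
        if x.val % 2 = 0 then 0 else (s x).2) = (s x).2 := by
      intro x
      split_ifs <;> simp
    simp only [this, hs.2.1, mul_zero]
  have hρa : ρ0 + ρ1 ≤ 31 / 16 := by
    rw [hρ0, hρ1, ← mul_add, ← Finset.sum_add_distrib]
    have : ∀ x : Fin (2 * m), ((if x.val % 2 = 0 then occ s x else 0) +
        if x.val % 2 = 0 then 0 else occ s x) = occ s x := by
      intro x
      split_ifs <;> simp
    simp only [this]
    have h := hs.2.2
    rw [one_div, inv_mul_le_iff₀ hm0]
    linarith
  have hρb : ρ0 - ρ1 = 2 * dev s := by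
    rw [hρ0, hρ1, ← mul_sub, ← Finset.sum_sub_distrib]
    have : ∀ x : Fin (2 * m), ((if x.val % 2 = 0 then occ s x else 0) -
        if x.val % 2 = 0 then 0 else occ s x) = (if x.val % 2 = 0 then 1 else -1) * occ s x := by
      intro x
      split_ifs <;> simp
    simp only [this]
    unfold dev
    field_simp
  have hR0 : ρ0 ≤ 125 / 128 + 32 * dev s ^ 2 := by nlinarith [sq_nonneg (dev s - 1 / 64)]
  have hR1 : ρ1 ≤ 125 / 128 + 32 * dev s ^ 2 := by nlinarith [sq_nonneg (dev s + 1 / 64)]
  have hterm : ∀ u : Fin m, PP^[d] (fun s : St m => (s (lo u)).2 * (s (hi u)).2 +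
      (1 / 2 * ((s (lo u)).2 ^ 2 * occ s (hi u)) + 1 / 2 * (occ s (lo u) * (s (hi u)).2 ^ 2))) s ≤
      1 / 2 * (125 / 128 + 32 * dev s ^ 2) *
        PP^[d] (fun s : St m => (s (lo u)).2 ^ 2 + (s (hi u)).2 ^ 2) s := by
    intro u
    have a1 := iter_lo_hi hm u (fun p => p.2) (fun p => p.2) s
    have a2 := iter_lo_hi hm u (fun p => p.2 ^ 2) (fun p => if p.1 = true then 1 else 0) s
    have a3 := iter_lo_hi hm u (fun p => if p.1 = true then 1 else 0) (fun p => p.2 ^ 2) s
    have b1 := iter_mean_lo hm (F := fun y s => (s y).2) PP_val s u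
    have b2 := iter_mean_hi hm (F := fun y s => (s y).2) PP_val s u
    have b3 := iter_mean_lo hm (F := fun y s => occ s y) PP_occ s u
    have b4 := iter_mean_hi hm (F := fun y s => occ s y) PP_occ s u
    have c1 := iter_nonneg d (f := fun s : St m => (s (lo u)).2 ^ 2) (fun _ => sq_nonneg _) s
    have c2 := iter_nonneg d (f := fun s : St m => (s (hi u)).2 ^ 2) (fun _ => sq_nonneg _) s
    change PP^[d] (fun s => (s (lo u)).2 ^ 2 * occ s (hi u)) s =
      _ * PP^[d] (fun s => occ s (hi u)) s at a2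
    change PP^[d] (fun s => occ s (lo u) * (s (hi u)).2 ^ 2) s =
      PP^[d] (fun s => occ s (lo u)) s * _ at a3
    rw [iter_add, iter_add, iter_add, iter_const_mul, iter_const_mul, a1, a2, a3, b1, b2, b3, b4,
      ← hα0, ← hα1, ← hρ0, ← hρ1]
    have d1 := mul_le_mul_of_nonneg_left hR1 c1
    have d2 := mul_le_mul_of_nonneg_left hR0 c2
    have d3 : α0 * α1 ≤ 0 := by
      rw [show α1 = -α0 by linarith]
      nlinarith [sq_nonneg α0]
    nlinarith
  have h1 := iter_mono ok_step d (fun s hs => (b1_eq hs).le) hs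
  rw [iter_add, iter_const_mul, iter_sum] at h1
  have h2 := Finset.sum_le_sum (fun u (_ : u ∈ Finset.univ) => hterm u)
  have h3 : (fun s : St m => ∑ u : Fin m, ((s (lo u)).2 ^ 2 + (s (hi u)).2 ^ 2)) = bb := by
    funext s
    exact (sum_lo_hi (fun x => (s x).2 ^ 2)).symm
  rw [← Finset.mul_sum, ← iter_sum _ d (fun u s => (s (lo u)).2 ^ 2 + (s (hi u)).2 ^ 2), h3] at h2
  have h4 := mul_le_mul_of_nonneg_left (iter_bb_le d s) (sq_nonneg (dev s))
  rw [Function.iterate_succ_apply, PP_bb]
  nlinarith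

theorem dev_step (c : Fin m → Bool) (s : St m) :
    dev (step c s) = ∑ u : Fin m, sg (c u) * (1 / (2 * m) * (occ s (lo u) - occ s (hi u))) := by
  unfold dev
  rw [sum_out c, Finset.mul_sum]
  refine Finset.sum_congr rfl (fun u _ => ?_)
  simp only [occ, step_lo, step_hi, stepPos_lo, stepPos_hi]
  cases c u
  · have : ¬ (2 * u.val + 1) % 2 = 0 := by omega
    simp only [sg, Bool.false_eq_true, if_false, add_zero, Nat.mul_mod_right, if_true, this]
    ring
  · have : ¬ (2 * u.val + 1) % 2 = 0 := by omega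
    simp only [sg, if_true, add_zero, Nat.mul_mod_right, this, if_false]
    ring

theorem av_dev (hm0 : 0 < m) (s : St m) : av (fun c => dev (step c s) ^ 2) ≤ 1 / (4 * m) := by
  have hm : (0 : ℝ) < m := by exact_mod_cast hm0
  simp only [dev_step]
  rw [av_sq_sum]
  have h : ∀ u : Fin m, (1 / (2 * (m : ℝ)) * (occ s (lo u) - occ s (hi u))) ^ 2 ≤
      (1 / (2 * (m : ℝ))) ^ 2 := by
    intro u
    rw [mul_pow]
    refine mul_le_of_le_one_right (sq_nonneg _) ?_
    unfold occ
    split_ifs <;> norm_num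
  refine (Finset.sum_le_sum (fun u _ => h u)).trans (le_of_eq ?_)
  rw [Finset.sum_const, Finset.card_univ, Fintype.card_fin, nsmul_eq_mul]
  field_simp
  norm_num

theorem block2 (hm : m = 2 ^ d) {s : St m} (hs : Ok s) :
    PP^[d + 2] bb s ≤ 253 / 256 * PP^[d + 1] bb s + 4 / m * bb s := by
  have hm0 : 0 < m := by
    rw [hm]
    positivity
  have hm1 : (0 : ℝ) < m := by exact_mod_cast hm0
  have h1 : PP^[d + 2] bb s ≤ av (fun c => 253 / 256 * PP^[d] bb (step c s) +
      16 * bb s * dev (step c s) ^ 2) := by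
    rw [Function.iterate_succ_apply']
    refine av_mono (fun c => (block hm (ok_step c s hs)).trans ?_)
    have := mul_le_mul_of_nonneg_left ((bb_step c s).le.trans (b1_le s))
      (sq_nonneg (dev (step c s)))
    nlinarith
  rw [av_add, av_const_mul, av_const_mul] at h1
  have h2 := mul_le_mul_of_nonneg_left (av_dev hm0 s)
    (mul_nonneg (show (0 : ℝ) ≤ 16 by norm_num) (bb_nonneg s))
  have h3 : 16 * bb s * (1 / (4 * m)) = 4 / m * bb s := by
    field_simp
    ring
  have h4 : PP^[d + 1] bb s = av (fun c => PP^[d] bb (step c s)) := by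
    rw [Function.iterate_succ_apply']
    rfl
  rw [h4]
  linarith

theorem recur (hm : m = 2 ^ d) {s : St m} (hs : Ok s) (t : ℕ) :
    PP^[t + (d + 2)] bb s ≤ 253 / 256 * PP^[t + (d + 1)] bb s + 4 / m * PP^[t] bb s := by
  rw [Function.iterate_add_apply, Function.iterate_add_apply PP t (d + 1), ← iter_const_mul,
    ← iter_const_mul, ← iter_add]
  exact iter_mono ok_step t (fun s hs => block2 hm hs) hs

theorem num (hd : 12 ≤ d) : (1024 : ℝ) ≤ 2 ^ d * (127 / 128) ^ (d + 1) := by
  induction d, hd using Nat.le_induction with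
  | base => norm_num
  | succ d _ ih =>
    rw [pow_succ 2 d, pow_succ _ (d + 1)]
    nlinarith

theorem decay (hm : m = 2 ^ d) (hd : 12 ≤ d) {s : St m} (hs : Ok s) (t : ℕ) :
    (127 / 128) ^ (d + 1) * PP^[t] bb s ≤ (127 / 128) ^ t * bb s := by
  induction t using Nat.strong_induction_on with
  | _ t ih =>
    rcases le_or_gt t (d + 1) with h | h
    · exact mul_le_mul (pow_le_pow_of_le_one (by norm_num) (by norm_num) h) (iter_bb_le t s)
        (iter_nonneg t bb_nonneg s) (by positivity)
    · obtain ⟨r, rfl⟩ : ∃ r, t = r + (d + 2) := ⟨t - (d + 2), by omega⟩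
      have h1 := ih (r + (d + 1)) (by omega)
      have h2 := ih r (by omega)
      have h3 := mul_le_mul_of_nonneg_left (recur hm hs r)
        (show (0 : ℝ) ≤ (127 / 128) ^ (d + 1) by positivity)
      have hm1 : (m : ℝ) = 2 ^ d := by
        rw [hm]
        simp
      have h4 : (4 : ℝ) / m ≤ 1 / 256 * (127 / 128) ^ (d + 1) := by
        rw [hm1, div_le_iff₀ (by positivity)]
        have := num hd
        linarith
      have h5 : (0 : ℝ) ≤ 4 / m := by positivity
      have h6 := mul_le_mul_of_nonneg_left h2 h5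
      have h7 := mul_le_mul_of_nonneg_right h4
        (mul_nonneg (show (0 : ℝ) ≤ (127 / 128) ^ r by positivity) (bb_nonneg s))
      rw [pow_add _ r] at h1
      rw [show r + (d + 2) = r + (d + 1) + 1 by omega, pow_succ _ (r + (d + 1)), pow_add _ r]
      rw [show r + (d + 1) + 1 = r + (d + 2) by omega]
      nlinarith

/-- The state after `t` steps. -/
noncomputable def st (E : Finset (Fin (2 * m))) (w : Fin (2 * m) → ℝ) (t : ℕ)
    (cs : Fin t → Fin m → Bool) : St m :=
  fun y => (decide (y ∈ E.image (iterPerm t cs)), VT E w t cs y)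

theorem st_succ (E : Finset (Fin (2 * m))) (w : Fin (2 * m) → ℝ) (t : ℕ)
    (cs : Fin (t + 1) → Fin m → Bool) :
    st E w (t + 1) cs = step (cs (Fin.last t)) (st E w t (fun i => cs i.castSucc)) := by
  funext y
  unfold st step
  refine Prod.ext ?_ ?_
  · simp only [decide_eq_decide, Finset.mem_image]
    refine exists_congr (fun a => and_congr_right (fun _ => ?_))
    change stepPos m _ (iterPerm t _ a) = y ↔ _
    constructor
    · rintro rfl
      rw [src_stepPos]
    · intro h
      rw [h, stepPos_src]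
  · simp only [decide_eq_true_eq]
    rfl

theorem av_st (E : Finset (Fin (2 * m))) (w : Fin (2 * m) → ℝ) (t : ℕ) (f : St m → ℝ) :
    av (fun cs => f (st E w t cs)) = PP^[t] f (st E w 0 Fin.elim0) := by
  induction t generalizing f with
  | zero =>
    rw [Function.iterate_zero, id, ← av_const (ι := Fin 0 → Fin m → Bool) (f _)]
    congr 1
  | succ t ih =>
    rw [Function.iterate_succ_apply, ← ih]
    simp only [st_succ]
    exact av_snoc (fun cs c => f (step c (st E w t cs)))

end Crest.Agent.R155.Walk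

namespace Crest.Agent.R155

open Walk

/-- The annealed one-card estimate. -/
theorem walk : WalkStmt := by
  intro d hd E hE w hw hs
  have e : ∀ y, st E w 0 Fin.elim0 y = (decide (y ∈ E), w y) := by
    intro y
    simp [st, iterPerm, VT]
  have hok : Ok (st E w 0 Fin.elim0) := by
    refine ⟨fun x hx => ?_, ?_, ?_⟩
    · rw [e] at hx ⊢
      exact hw x (by simpa using hx)
    · simpa only [e] using hs
    · simp only [occ, e, decide_eq_true_eq]
      rw [Finset.sum_boole, Finset.filter_mem_eq_inter, Finset.univ_inter]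
      have h : ((32 * E.card : ℕ) : ℝ) ≤ (31 * (2 * 2 ^ d) : ℕ) := by exact_mod_cast hE
      push_cast at h ⊢
      linarith
  have h1 := av_st E w (400 * (d + 1)) bb
  have h2 := decay rfl hd hok (400 * (d + 1))
  have h3 : bb (st E w 0 Fin.elim0) = ∑ y, w y ^ 2 := by simp only [bb, e]
  have h4 := bb_nonneg (st E w 0 Fin.elim0)
  have h5 : ((127 : ℝ) / 128) ^ (400 * (d + 1)) =
      (127 / 128) ^ (d + 1) * ((127 / 128) ^ 399) ^ (d + 1) := by
    rw [← pow_mul, ← pow_add, show d + 1 + 399 * (d + 1) = 400 * (d + 1) by ring]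
  rw [← h1, h5, mul_assoc, mul_le_mul_iff_right₀ (by positivity), h3] at h2
  rw [h3] at h4
  refine le_trans h2 (mul_le_mul_of_nonneg_right ?_ h4)
  refine pow_le_pow_left₀ (by positivity) ?_ _
  have h6 : ((127 : ℝ) / 128) ^ 133 ≤ 1 / 2 := by norm_num
  rw [show 399 = 133 * 3 from rfl, pow_mul]
  exact (pow_le_pow_left₀ (by positivity) h6 3).trans (by norm_num)

end Crest.Agent.R155
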