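import Crest.Agent.R155.Defs

/-! Row 155, the annealed one-card estimate, part A: states, the averaging operator, one step. -/

set_option autoImplicit false

namespace Crest.Agent.R155.Walk

open Crest.ProbabilityR.Shuffle Finset

/-! ### averages -/

section av

variable {ι : Type*} [Fintype ι]

theorem av_add (f g : ι → ℝ) : av (fun i => f i + g i) = av f + av g := by
  unfold av
  rw [Finset.sum_add_distrib, add_div]

theorem av_const_mul (a : ℝ) (f : ι → ℝ) : av (fun i => a * f i) = a * av f := by
  unfold av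
  rw [← Finset.mul_sum, mul_div_assoc]

theorem av_sum {κ : Type*} (S : Finset κ) (f : κ → ι → ℝ) :
    av (fun i => ∑ k ∈ S, f k i) = ∑ k ∈ S, av (f k) := by
  unfold av
  rw [Finset.sum_comm, Finset.sum_div]

theorem av_const [Nonempty ι] (a : ℝ) : av (fun _ : ι => a) = a := by
  unfold av
  have : (Fintype.card ι : ℝ) ≠ 0 := by exact_mod_cast Fintype.card_ne_zero
  rw [Finset.sum_const, Finset.card_univ, nsmul_eq_mul, mul_div_cancel_left₀ _ this]

theorem av_mono {f g : ι → ℝ} (h : ∀ i, f i ≤ g i) : av f ≤ av g :=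
  div_le_div_of_nonneg_right (Finset.sum_le_sum (fun i _ => h i)) (Nat.cast_nonneg _)

theorem av_equiv (e : ι ≃ ι) (f : ι → ℝ) : av (fun i => f (e i)) = av f := by
  unfold av
  rw [e.sum_comp]

theorem av_snoc {t : ℕ} (F : (Fin t → ι) → ι → ℝ) :
    av (fun cs : Fin (t + 1) → ι => F (fun i => cs i.castSucc) (cs (Fin.last t))) =
      av (fun cs : Fin t → ι => av (fun c => F cs c)) := by
  unfold av
  rw [← (Fin.snocEquiv (fun _ : Fin (t + 1) => ι)).sum_comp, Fintype.sum_prod_type_right,
    ← Finset.sum_div, div_div]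
  simp only [Fin.snocEquiv, Equiv.coe_fn_mk, Fin.snoc_castSucc, Fin.snoc_last, Fintype.card_fun,
    Fintype.card_fin, pow_succ, Nat.cast_mul]
  rw [mul_comm]

end av

section coins

variable {κ : Type*} [Fintype κ] [DecidableEq κ]

/-- Flip one coin. -/
def flipc (u : κ) (c : κ → Bool) : κ → Bool := Function.update c u (!c u)

omit [Fintype κ] in
theorem flipc_invol (u : κ) : Function.Involutive (flipc u) := by
  intro c
  funext v
  by_cases h : v = u
  · subst h
    simp [flipc]
  · simp [flipc, h]

theorem av_flip (u : κ) (f : (κ → Bool) → ℝ) : av (fun c => f (flipc u c)) = av f :=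
  av_equiv (flipc_invol u).toPerm f

theorem av_eq_of_flip (u : κ) {f : (κ → Bool) → ℝ} {a : ℝ}
    (h : ∀ c, f c + f (flipc u c) = 2 * a) : av f = a := by
  have h1 := av_add f (fun c => f (flipc u c))
  simp only [h] at h1
  rw [av_const, av_flip] at h1
  linarith

theorem av_indep (U : κ → Prop) {φ ψ : (κ → Bool) → ℝ}
    (hφ : ∀ c c', (∀ u, U u → c u = c' u) → φ c = φ c')
    (hψ : ∀ c c', (∀ u, ¬ U u → c u = c' u) → ψ c = ψ c') :
    av (fun c => φ c * ψ c) = av φ * av ψ := by
  classical
  let mix : (κ → Bool) → (κ → Bool) → κ → Bool := fun c c' u => if U u then c u else c' u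
  have hinv : Function.Involutive
      (fun q : (κ → Bool) × (κ → Bool) => (mix q.1 q.2, mix q.2 q.1)) := by
    rintro ⟨c, c'⟩
    refine Prod.ext (funext fun u => ?_) (funext fun u => ?_) <;>
      by_cases h : U u <;> simp [mix, h]
  have h1 := Equiv.sum_comp (hinv.toPerm _) (fun q : (κ → Bool) × (κ → Bool) => φ q.1 * ψ q.2)
  have h2 : ∀ q : (κ → Bool) × (κ → Bool),
      φ (hinv.toPerm _ q).1 * ψ (hinv.toPerm _ q).2 = φ q.1 * ψ q.1 := by
    rintro ⟨c, c'⟩
    rw [hφ _ c (fun u hu => by simp [mix, hu]), hψ _ c (fun u hu => by simp [mix, hu])]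
  simp only [h2] at h1
  rw [Fintype.sum_prod_type, Fintype.sum_prod_type] at h1
  simp only [Finset.sum_const, Finset.card_univ, nsmul_eq_mul, ← Finset.mul_sum,
    ← Finset.sum_mul] at h1
  have hc : (Fintype.card (κ → Bool) : ℝ) ≠ 0 := by exact_mod_cast Fintype.card_ne_zero
  unfold av
  rw [div_mul_div_comm, ← h1]
  field_simp

/-- The sign of a coin. -/
def sg (b : Bool) : ℝ := if b then -1 else 1

theorem av_sq_sum (δ : κ → ℝ) :
    av (fun c : κ → Bool => (∑ u, sg (c u) * δ u) ^ 2) = ∑ u, δ u ^ 2 := by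
  simp only [sq, Finset.sum_mul_sum, av_sum]
  refine Finset.sum_congr rfl (fun u _ => ?_)
  rw [Finset.sum_eq_single u]
  · rw [← av_const (ι := κ → Bool) (δ u * δ u)]
    congr 1
    funext c
    cases c u <;> simp [sg]
  · intro v _ hv
    refine av_eq_of_flip u (fun c => ?_)
    simp only [flipc, Function.update_self, Function.update_of_ne hv]
    cases c u <;> cases c v <;> simp [sg]
  · simp

end coins

variable {m : ℕ}

/-- States: at every position an occupation flag and a value. -/
abbrev St (m : ℕ) := Fin (2 * m) → Bool × ℝ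

/-- One step. -/
noncomputable def step (c : Fin m → Bool) (s : St m) : St m := fun y =>
  ((s (src c y)).1, if (s (lo (sw y))).1 = true ∨ (s (hi (sw y))).1 = true then (s (src c y)).2
    else ((s (lo (sw y))).2 + (s (hi (sw y))).2) / 2)

/-- The averaging operator. -/
noncomputable def PP (f : St m → ℝ) : St m → ℝ := fun s => av (fun c => f (step c s))

/-- The occupation indicator. -/
def occ (s : St m) (x : Fin (2 * m)) : ℝ := if (s x).1 = true then 1 else 0

theorem iter_add (k : ℕ) (f g : St m → ℝ) (s : St m) :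
    PP^[k] (fun s => f s + g s) s = PP^[k] f s + PP^[k] g s := by
  induction k generalizing s with
  | zero => rfl
  | succ k ih =>
    simp only [Function.iterate_succ_apply']
    unfold PP
    simp only [← av_add]
    exact congrArg av (funext fun c => ih _)

theorem iter_const_mul (k : ℕ) (a : ℝ) (f : St m → ℝ) (s : St m) :
    PP^[k] (fun s => a * f s) s = a * PP^[k] f s := by
  induction k generalizing s with
  | zero => rfl
  | succ k ih =>
    simp only [Function.iterate_succ_apply']
    unfold PP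
    simp only [← av_const_mul]
    exact congrArg av (funext fun c => ih _)

theorem iter_sum {κ : Type*} (S : Finset κ) (k : ℕ) (f : κ → St m → ℝ) (s : St m) :
    PP^[k] (fun s => ∑ i ∈ S, f i s) s = ∑ i ∈ S, PP^[k] (f i) s := by
  induction k generalizing s with
  | zero => rfl
  | succ k ih =>
    simp only [Function.iterate_succ_apply']
    unfold PP
    simp only [← av_sum]
    exact congrArg av (funext fun c => ih _)

theorem iter_mono {Q : St m → Prop} (hQ : ∀ c s, Q s → Q (step c s)) (k : ℕ) {f g : St m → ℝ}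
    (h : ∀ s, Q s → f s ≤ g s) {s : St m} (hs : Q s) : PP^[k] f s ≤ PP^[k] g s := by
  induction k generalizing s with
  | zero => exact h s hs
  | succ k ih =>
    simp only [Function.iterate_succ_apply']
    exact av_mono (fun c => ih (hQ c s hs))

theorem iter_nonneg (k : ℕ) {f : St m → ℝ} (h : ∀ s, 0 ≤ f s) (s : St m) : 0 ≤ PP^[k] f s := by
  induction k generalizing s with
  | zero => exact h s
  | succ k ih =>
    simp only [Function.iterate_succ_apply']
    exact le_of_eq_of_le (av_const 0).symm (av_mono (fun c => ih _))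

/-! ### reindexing -/

theorem sum_lo_hi (f : Fin (2 * m) → ℝ) : ∑ x, f x = ∑ u : Fin m, (f (lo u) + f (hi u)) := by
  rw [← (finCongr (two_mul m).symm).sum_comp, Fin.sum_univ_add, ← Finset.sum_add_distrib]
  refine Finset.sum_congr rfl (fun u _ => ?_)
  congr 2
  apply Fin.ext
  simp [hi, add_comm]

theorem sum_out (c : Fin m → Bool) (f : Fin (2 * m) → ℝ) :
    ∑ y, f y = ∑ u : Fin m, (f (stepPos m c (lo u)) + f (stepPos m c (hi u))) := by
  rw [← Equiv.sum_comp (stepPerm c), sum_lo_hi]
  rfl

theorem stepPos_lo (c : Fin m → Bool) (u : Fin m) :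
    (stepPos m c (lo u)).val = 2 * u.val + if c u then 1 else 0 := by
  have hu := u.isLt
  have e : u.val % m = u.val := Nat.mod_eq_of_lt hu
  have e2 : ¬ m ≤ u.val := by omega
  simp [stepPos, lo, e, e2]

theorem stepPos_hi (c : Fin m → Bool) (u : Fin m) :
    (stepPos m c (hi u)).val = 2 * u.val + if c u then 0 else 1 := by
  have hu := u.isLt
  have e : u.val % m = u.val := Nat.mod_eq_of_lt hu
  simp only [stepPos, hi, Nat.add_mod_right, e, le_add_iff_nonneg_left, zero_le, decide_true,
    Fin.eta]
  cases c u <;> simp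

theorem sw_lo (c : Fin m → Bool) (u : Fin m) : sw (stepPos m c (lo u)) = u := by
  apply Fin.ext
  simp only [sw, stepPos_lo]
  split_ifs <;> omega

theorem sw_hi (c : Fin m → Bool) (u : Fin m) : sw (stepPos m c (hi u)) = u := by
  apply Fin.ext
  simp only [sw, stepPos_hi]
  split_ifs <;> omega

theorem step_lo (c : Fin m → Bool) (s : St m) (u : Fin m) :
    step c s (stepPos m c (lo u)) = ((s (lo u)).1,
      if (s (lo u)).1 = true ∨ (s (hi u)).1 = true then (s (lo u)).2
      else ((s (lo u)).2 + (s (hi u)).2) / 2) := by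
  unfold step
  rw [src_stepPos, sw_lo]

theorem step_hi (c : Fin m → Bool) (s : St m) (u : Fin m) :
    step c s (stepPos m c (hi u)) = ((s (hi u)).1,
      if (s (lo u)).1 = true ∨ (s (hi u)).1 = true then (s (hi u)).2
      else ((s (lo u)).2 + (s (hi u)).2) / 2) := by
  unfold step
  rw [src_stepPos, sw_hi]

theorem src_cases (c : Fin m → Bool) (y : Fin (2 * m)) :
    src c y = lo (sw y) ∨ src c y = hi (sw y) := by
  unfold src
  split_ifs
  · exact Or.inr rfl
  · exact Or.inl rfl

theorem src_flip (c : Fin m → Bool) (y : Fin (2 * m)) (a : Fin (2 * m) → ℝ) :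
    a (src c y) + a (src (flipc (sw y) c) y) = a (lo (sw y)) + a (hi (sw y)) := by
  unfold src flipc
  rw [Function.update_self]
  cases c (sw y) <;> cases decide (y.val % 2 = 1) <;> simp [add_comm]

/-! ### the invariant set and the energy -/

/-- The invariant set. -/
def Ok (s : St m) : Prop :=
  (∀ x, (s x).1 = true → (s x).2 = 0) ∧ ∑ x, (s x).2 = 0 ∧ ∑ x, occ s x ≤ 31 / 32 * (2 * m)

theorem sum_occ_step (c : Fin m → Bool) (s : St m) : ∑ y, occ (step c s) y = ∑ x, occ s x := by
  rw [sum_out c, sum_lo_hi]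
  simp only [occ, step_lo, step_hi]

theorem ok_step (c : Fin m → Bool) (s : St m) (hs : Ok s) : Ok (step c s) := by
  refine ⟨fun y hy => ?_, ?_, ?_⟩
  · change (s (src c y)).1 = true at hy
    have h1 : (s (lo (sw y))).1 = true ∨ (s (hi (sw y))).1 = true := by
      rcases src_cases c y with h | h <;> rw [h] at hy
      · exact Or.inl hy
      · exact Or.inr hy
    unfold step
    simp only [if_pos h1]
    exact hs.1 _ hy
  · rw [sum_out c, ← hs.2.1, sum_lo_hi]
    refine Finset.sum_congr rfl (fun u _ => ?_)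
    simp only [step_lo, step_hi]
    split_ifs
    · rfl
    · ring
  · rw [sum_occ_step]
    exact hs.2.2

/-- The energy. -/
def bb (s : St m) : ℝ := ∑ x, (s x).2 ^ 2

/-- The energy after one step. -/
noncomputable def b1 (s : St m) : ℝ := ∑ u : Fin m,
  if (s (lo u)).1 = true ∨ (s (hi u)).1 = true then (s (lo u)).2 ^ 2 + (s (hi u)).2 ^ 2
  else ((s (lo u)).2 + (s (hi u)).2) ^ 2 / 2

theorem bb_nonneg (s : St m) : 0 ≤ bb s := Finset.sum_nonneg (fun _ _ => sq_nonneg _)

theorem bb_step (c : Fin m → Bool) (s : St m) : bb (step c s) = b1 s := by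
  unfold bb b1
  rw [sum_out c]
  refine Finset.sum_congr rfl (fun u _ => ?_)
  simp only [step_lo, step_hi]
  split_ifs
  · rfl
  · ring

theorem PP_bb : PP (bb (m := m)) = b1 := by
  funext s
  unfold PP
  simp only [bb_step]
  exact av_const _

theorem b1_le (s : St m) : b1 s ≤ bb s := by
  unfold bb b1
  rw [sum_lo_hi]
  refine Finset.sum_le_sum (fun u _ => ?_)
  split_ifs
  · exact le_rfl
  · nlinarith [sq_nonneg ((s (lo u)).2 - (s (hi u)).2)]

theorem b1_eq {s : St m} (hs : Ok s) : b1 s = 1 / 2 * bb s +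
    ∑ u : Fin m, ((s (lo u)).2 * (s (hi u)).2 +
      (1 / 2 * ((s (lo u)).2 ^ 2 * occ s (hi u)) + 1 / 2 * (occ s (lo u) * (s (hi u)).2 ^ 2))) := by
  unfold bb b1
  rw [sum_lo_hi, Finset.mul_sum, ← Finset.sum_add_distrib]
  refine Finset.sum_congr rfl (fun u _ => ?_)
  have h1 := hs.1 (lo u)
  have h2 := hs.1 (hi u)
  unfold occ
  by_cases a : (s (lo u)).1 = true <;> by_cases b : (s (hi u)).1 = true
  · simp [a, b, h1 a, h2 b]
  · simp only [a, b, h1 a]
    simp
    ring
  · simp only [a, b, h2 b]
    simp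
    ring
  · simp only [a, b]
    simp
    ring

theorem iter_bb_succ_le (k : ℕ) (s : St m) : PP^[k + 1] bb s ≤ PP^[k] bb s := by
  rw [Function.iterate_succ_apply, PP_bb]
  exact iter_mono (Q := fun _ => True) (fun _ _ _ => trivial) k (fun s _ => b1_le s) trivial

theorem iter_bb_le (k : ℕ) (s : St m) : PP^[k] bb s ≤ bb s := by
  induction k with
  | zero => exact le_rfl
  | succ k ih => exact (iter_bb_succ_le k s).trans ih

end Crest.Agent.R155.Walk
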