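import Crest.Agent.R155.WalkA

/-! Row 155, the annealed one-card estimate, part B: fibre independence and means. -/

set_option autoImplicit false

namespace Crest.Agent.R155.Walk

open Crest.ProbabilityR.Shuffle Finset

variable {m d : ℕ}

/-- `f` only depends on the positions whose bit `i` is `β`. -/
def Loc (i : ℕ) (β : Bool) (f : St m → ℝ) : Prop :=
  ∀ s s' : St m, (∀ x : Fin (2 * m), Nat.testBit x.val i = β → s x = s' x) → f s = f s'

theorem step_congr (hm : m = 2 ^ d) {i : ℕ} (hi' : i < d) {β : Bool} {c c' : Fin m → Bool}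
    {s s' : St m} (hc : ∀ u : Fin m, Nat.testBit u.val i = β → c u = c' u)
    (hs : ∀ x : Fin (2 * m), Nat.testBit x.val i = β → s x = s' x) (y : Fin (2 * m))
    (hy : Nat.testBit y.val (i + 1) = β) : step c s y = step c' s' y := by
  have h0 : Nat.testBit (sw y).val i = β := by
    rw [← hy, Nat.testBit_succ]
    rfl
  have h1 : s (lo (sw y)) = s' (lo (sw y)) := hs _ h0
  have h2 : s (hi (sw y)) = s' (hi (sw y)) := by
    refine hs _ ?_
    change Nat.testBit ((sw y).val + m) i = β
    rw [← h0]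
    generalize (sw y).val = z
    rw [hm, add_comm, Nat.testBit_two_pow_add_gt hi']
  have h3 : src c y = src c' y := by
    unfold src
    rw [hc _ h0]
  have h4 : s (src c y) = s' (src c' y) := by
    rw [← h3]
    rcases src_cases c y with h | h <;> rw [h] <;> assumption
  unfold step
  rw [h1, h2, h4]

theorem loc_PP (hm : m = 2 ^ d) {i : ℕ} (hi' : i < d) {β : Bool} {f : St m → ℝ}
    (hf : Loc (i + 1) β f) : Loc i β (PP f) := by
  intro s s' hs
  unfold PP
  congr 1
  funext c
  exact hf _ _ (fun y hy => step_congr hm hi' (fun _ _ => rfl) hs y hy)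

theorem PP_mul (hm : m = 2 ^ d) {i : ℕ} (hi' : i < d) {β : Bool} {f g : St m → ℝ}
    (hf : Loc (i + 1) β f) (hg : Loc (i + 1) (!β) g) :
    PP (fun s => f s * g s) = fun s => PP f s * PP g s := by
  funext s
  unfold PP
  refine av_indep (fun u : Fin m => Nat.testBit u.val i = β) (fun c c' h => ?_) (fun c c' h => ?_)
  · exact hf _ _ (fun y hy => step_congr hm hi' h (fun _ _ => rfl) y hy)
  · refine hg _ _ (fun y hy => step_congr hm hi' (fun u hu => h u ?_) (fun _ _ => rfl) y hy)
    rw [hu]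
    cases β <;> simp

theorem iter_mul (hm : m = 2 ^ d) {β : Bool} (k : ℕ) {i : ℕ} (hk : k ≤ i) (hi' : i ≤ d)
    {f g : St m → ℝ} (hf : Loc i β f) (hg : Loc i (!β) g) (s : St m) :
    PP^[k] (fun s => f s * g s) s = PP^[k] f s * PP^[k] g s := by
  induction k generalizing i f g with
  | zero => rfl
  | succ k ih =>
    obtain ⟨j, rfl⟩ : ∃ j, i = j + 1 := ⟨i - 1, by omega⟩
    simp only [Function.iterate_succ_apply]
    rw [PP_mul hm (by omega) hf hg]
    exact ih (i := j) (by omega) (by omega) (loc_PP hm (by omega) hf) (loc_PP hm (by omega) hg)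

theorem loc_lo (hm : m = 2 ^ d) (u : Fin m) (φ : Bool × ℝ → ℝ) :
    Loc d false (fun s : St m => φ (s (lo u))) := by
  intro s s' hs
  have h : s (lo u) = s' (lo u) := hs _ (Nat.testBit_lt_two_pow (hm ▸ u.isLt))
  simp only [h]

theorem loc_hi (hm : m = 2 ^ d) (u : Fin m) (φ : Bool × ℝ → ℝ) :
    Loc d (!false) (fun s : St m => φ (s (hi u))) := by
  intro s s' hs
  have h : s (hi u) = s' (hi u) := by
    refine hs _ ?_
    change Nat.testBit (u.val + m) d = !false
    have hu : u.val < 2 ^ d := hm ▸ u.isLt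
    generalize u.val = z at hu
    rw [hm, add_comm, Nat.testBit_two_pow_add_eq, Nat.testBit_lt_two_pow hu]
  simp only [h]

theorem iter_lo_hi (hm : m = 2 ^ d) (u : Fin m) (φ ψ : Bool × ℝ → ℝ) (s : St m) :
    PP^[d] (fun s => φ (s (lo u)) * ψ (s (hi u))) s =
      PP^[d] (fun s => φ (s (lo u))) s * PP^[d] (fun s => ψ (s (hi u))) s :=
  iter_mul hm d le_rfl le_rfl (loc_lo hm u φ) (loc_hi hm u ψ) s

/-! ### means -/

theorem PP_val (y : Fin (2 * m)) (s : St m) :
    PP (fun s => (s y).2) s = ((s (lo (sw y))).2 + (s (hi (sw y))).2) / 2 := by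
  unfold PP
  refine av_eq_of_flip (sw y) (fun c => ?_)
  simp only [step]
  split_ifs
  · rw [src_flip c y (fun x => (s x).2)]
    ring
  · ring

theorem PP_occ (y : Fin (2 * m)) (s : St m) :
    PP (fun s => occ s y) s = (occ s (lo (sw y)) + occ s (hi (sw y))) / 2 := by
  unfold PP
  refine av_eq_of_flip (sw y) (fun c => ?_)
  have := src_flip c y (occ s)
  change occ s (src c y) + occ s (src (flipc (sw y) c) y) = _
  rw [this]
  ring

theorem mod_split {M z : ℕ} (hz : z < M) (x : ℕ) (a : ℝ) :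
    ((if x % (M * 2) = z then a else 0) + if x % (M * 2) = z + M then a else 0) =
      if x % M = z then a else 0 := by
  have h1 : x % M = (x % (M * 2)) % M := (Nat.mod_mul_right_mod x M 2).symm
  have h2 : x % (M * 2) < M * 2 := Nat.mod_lt _ (by omega)
  rw [h1]
  generalize x % (M * 2) = r at h2
  rcases lt_or_ge r M with h | h
  · rw [Nat.mod_eq_of_lt h, if_neg (show ¬ r = z + M by omega), add_zero]
  · have h3 : r % M = r - M := by
      rw [Nat.mod_eq_sub_mod h, Nat.mod_eq_of_lt (by omega)]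
    rw [h3, if_neg (show ¬ r = z by omega), zero_add]
    exact if_congr (by omega) rfl rfl

theorem iter_mean (hm : m = 2 ^ d) {F : Fin (2 * m) → St m → ℝ}
    (hF : ∀ y s, PP (F y) s = (F (lo (sw y)) s + F (hi (sw y)) s) / 2) (s : St m) (k : ℕ)
    (hk : k ≤ d + 1) (y : Fin (2 * m)) :
    PP^[k] (F y) s = (1 / 2) ^ k *
      ∑ x : Fin (2 * m), if x.val % 2 ^ (d + 1 - k) = y.val / 2 ^ k then F x s else 0 := by
  induction k generalizing y with
  | zero =>
    have h : ∀ x : Fin (2 * m), (x.val % 2 ^ (d + 1 - 0) = y.val / 2 ^ 0) ↔ x = y := by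
      intro x
      have hx : x.val < 2 ^ (d + 1 - 0) := by
        have := x.isLt
        rw [Nat.sub_zero, pow_succ]
        omega
      rw [Nat.mod_eq_of_lt hx, pow_zero, Nat.div_one, Fin.ext_iff]
    simp only [h]
    simp
  | succ k ih =>
    have e : PP (F y) = fun s => 1 / 2 * F (lo (sw y)) s + 1 / 2 * F (hi (sw y)) s := by
      funext s
      rw [hF]
      ring
    obtain ⟨j, hj⟩ : ∃ j, d = j + k := ⟨d - k, by omega⟩
    have e1 : d + 1 - k = j + 1 := by omega
    have e2 : d + 1 - (k + 1) = j := by omega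
    have e3 : (lo (sw y)).val / 2 ^ k = y.val / 2 ^ (k + 1) := by
      change y.val / 2 / 2 ^ k = _
      rw [Nat.div_div_eq_div_mul, pow_succ']
    have e4 : (hi (sw y)).val / 2 ^ k = y.val / 2 ^ (k + 1) + 2 ^ j := by
      change (y.val / 2 + m) / 2 ^ k = _
      generalize y.val = z
      rw [hm, hj, pow_add, Nat.add_mul_div_right _ _ (by positivity), Nat.div_div_eq_div_mul,
        ← pow_succ']
    have e5 : y.val / 2 ^ (k + 1) < 2 ^ j := by
      rw [Nat.div_lt_iff_lt_mul (by positivity), ← pow_add]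
      have := y.isLt
      have h2 : 2 ^ (j + (k + 1)) = 2 * m := by
        rw [hm, hj, ← add_assoc, pow_succ']
      omega
    rw [Function.iterate_succ_apply, e, iter_add, iter_const_mul, iter_const_mul,
      ih (by omega), ih (by omega), e1, e2, e3, e4, pow_succ 2 j]
    simp only [← mod_split e5, Finset.sum_add_distrib]
    ring

theorem iter_mean_lo (hm : m = 2 ^ d) {F : Fin (2 * m) → St m → ℝ}
    (hF : ∀ y s, PP (F y) s = (F (lo (sw y)) s + F (hi (sw y)) s) / 2) (s : St m) (u : Fin m) :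
    PP^[d] (F (lo u)) s = 1 / m * ∑ x : Fin (2 * m), if x.val % 2 = 0 then F x s else 0 := by
  have hu : (lo u).val / 2 ^ d = 0 := Nat.div_eq_of_lt (hm ▸ u.isLt)
  rw [iter_mean hm hF s d (by omega), hu, show d + 1 - d = 1 by omega, pow_one]
  congr 1
  rw [hm]
  simp

theorem iter_mean_hi (hm : m = 2 ^ d) {F : Fin (2 * m) → St m → ℝ}
    (hF : ∀ y s, PP (F y) s = (F (lo (sw y)) s + F (hi (sw y)) s) / 2) (s : St m) (u : Fin m) :
    PP^[d] (F (hi u)) s = 1 / m * ∑ x : Fin (2 * m), if x.val % 2 = 0 then 0 else F x s := by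
  have hu : (hi u).val / 2 ^ d = 1 := by
    change (u.val + m) / 2 ^ d = 1
    have h : u.val < 2 ^ d := hm ▸ u.isLt
    generalize u.val = z at h
    rw [hm, Nat.add_div_right _ (by positivity), Nat.div_eq_of_lt h]
  rw [iter_mean hm hF s d (by omega), hu, show d + 1 - d = 1 by omega, pow_one]
  congr 1
  · rw [hm]
    simp
  · refine Finset.sum_congr rfl (fun x _ => ?_)
    rcases Nat.mod_two_eq_zero_or_one x.val with h | h <;> simp [h]

end Crest.Agent.R155.Walk
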